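import Mathlib

namespace Vale.Agent.Results.P047.DegTopMinusTwo

open Finset

/-- The sign attached to a bit: `false` is `1` and `true` is `-1`. -/
noncomputable def sg (b : Bool) : ℝ := if b then -1 else 1

/-- The character `χ_T(x) = ∏_{i ∈ T} x_i` on the cube `{-1,1}^n` (coded by bits). -/
noncomputable def chi {n : ℕ} (T : Finset (Fin n)) (x : Fin n → Bool) : ℝ :=
  ∏ i ∈ T, sg (x i)

/-- The Fourier coefficient `f̂(T) = E[f(X) χ_T(X)]`, `X` uniform on the cube. -/
noncomputable def fourier {n : ℕ} (f : (Fin n → Bool) → ℝ) (T : Finset (Fin n)) : ℝ :=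
  (∑ x : Fin n → Bool, f x * chi T x) / 2 ^ n

/-- `B d = E|X_1 + ... + X_d|`, `X` uniform on `{-1,1}^d`. -/
noncomputable def B (d : ℕ) : ℝ :=
  (∑ x : Fin d → Bool, |∑ i : Fin d, sg (x i)|) / 2 ^ d

/-- sum of the coordinates -/
noncomputable def S {n : ℕ} (x : Fin n → Bool) : ℝ := ∑ i : Fin n, sg (x i)

lemma sg_mul_self (b : Bool) : sg b * sg b = 1 := by
  cases b <;> simp [sg]

lemma sg_true : sg true = -1 := by simp [sg]
lemma sg_false : sg false = 1 := by simp [sg]

/-- number of minus signs -/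
def cnt {n : ℕ} (y : Fin n → Bool) : ℕ := (univ.filter (fun i => y i = true)).card

lemma cnt_le {n : ℕ} (y : Fin n → Bool) : cnt y ≤ n := by
  unfold cnt
  calc (univ.filter (fun i => y i = true)).card ≤ (univ : Finset (Fin n)).card := card_filter_le _ _
    _ = n := by simp

lemma S_eq {n : ℕ} (y : Fin n → Bool) : S y = (n : ℝ) - 2 * (cnt y : ℝ) := by
  unfold S cnt
  have h : ∀ i : Fin n, sg (y i) = 1 - 2 * (if y i = true then (1 : ℝ) else 0) := by
    intro i
    cases h : y i <;> simp [sg]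
    norm_num
  simp only [h]
  rw [Finset.sum_sub_distrib, ← Finset.mul_sum, Finset.sum_boole]
  simp

lemma chi_eq {n : ℕ} (y : Fin n → Bool) : chi univ y = (-1 : ℝ) ^ cnt y := by
  unfold chi cnt
  have h : ∀ i : Fin n, sg (y i) = if y i = true then (-1 : ℝ) else 1 := by
    intro i
    cases h : y i <;> simp [sg]
  simp only [h]
  rw [Finset.prod_ite]
  simp

lemma S_cons {n : ℕ} (a : Bool) (y : Fin n → Bool) :
    S (Fin.cons a y : Fin (n + 1) → Bool) = sg a + S y := by
  unfold S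
  rw [Fin.sum_univ_succ]
  simp

lemma chi_cons {n : ℕ} (a : Bool) (y : Fin n → Bool) :
    chi univ (Fin.cons a y : Fin (n + 1) → Bool) = sg a * chi univ y := by
  unfold chi
  rw [Fin.prod_univ_succ]
  simp

lemma sum_cons {n : ℕ} (F : (Fin (n + 1) → Bool) → ℝ) :
    ∑ x, F x = ∑ y : Fin n → Bool, ∑ a : Bool, F (Fin.cons a y) := by
  rw [← (Equiv.sum_comp (Fin.consEquiv (fun _ : Fin (n + 1) => Bool)) F)]
  rw [Fintype.sum_prod_type, Finset.sum_comm]
  rfl

lemma key_even (t v : ℝ) (hv : v = 1 ∨ v = -1) (h : v = -1 → 2 ≤ |t|) :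
    |(t + 2) * (1 - v)| + |t * (1 + v)| + |t * (1 + v)| + |(t - 2) * (1 - v)| = 4 * |t| := by
  rcases hv with rfl | rfl
  · have : |t * (1 + 1)| = 2 * |t| := by
      rw [abs_mul]; norm_num; ring
    simp only [sub_self, mul_zero, abs_zero, this]
    ring
  · have h2 := h rfl
    have e1 : (1 : ℝ) - -1 = 2 := by norm_num
    have e2 : (1 : ℝ) + -1 = 0 := by norm_num
    rw [e1, e2]
    simp only [mul_zero, abs_zero, add_zero]
    rcases le_abs.mp h2 with h3 | h3
    · rw [abs_of_nonneg (by linarith : (0:ℝ) ≤ (t + 2) * 2), abs_of_nonneg (by linarith : (0:ℝ) ≤ (t - 2) * 2),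
        abs_of_nonneg (by linarith : (0:ℝ) ≤ t)]
      ring
    · rw [abs_of_nonpos (by linarith : (t + 2) * 2 ≤ (0:ℝ)), abs_of_nonpos (by linarith : (t - 2) * 2 ≤ (0:ℝ)),
        abs_of_nonpos (by linarith : t ≤ (0:ℝ))]
      ring

lemma key_odd (t v : ℝ)
    (h : 3 ≤ t ∨ t ≤ -3 ∨ (t = 1 ∧ v = -1) ∨ (t = -1 ∧ v = 1)) (hv : v = 1 ∨ v = -1) :
    |t + 2 - v| + |t + v| + |t + v| + |t - 2 - v| = 4 * |t| := by
  rcases h with h | h | ⟨rfl, rfl⟩ | ⟨rfl, rfl⟩
  · rcases hv with rfl | rfl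
    · rw [abs_of_nonneg (by linarith : (0:ℝ) ≤ t + 2 - 1), abs_of_nonneg (by linarith : (0:ℝ) ≤ t + 1),
        abs_of_nonneg (by linarith : (0:ℝ) ≤ t - 2 - 1), abs_of_nonneg (by linarith : (0:ℝ) ≤ t)]
      ring
    · rw [abs_of_nonneg (by linarith : (0:ℝ) ≤ t + 2 - -1), abs_of_nonneg (by linarith : (0:ℝ) ≤ t + -1),
        abs_of_nonneg (by linarith : (0:ℝ) ≤ t - 2 - -1), abs_of_nonneg (by linarith : (0:ℝ) ≤ t)]
      ring
  · rcases hv with rfl | rfl
    · rw [abs_of_nonpos (by linarith : t + 2 - 1 ≤ (0:ℝ)), abs_of_nonpos (by linarith : t + 1 ≤ (0:ℝ)),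
        abs_of_nonpos (by linarith : t - 2 - 1 ≤ (0:ℝ)), abs_of_nonpos (by linarith : t ≤ (0:ℝ))]
      ring
    · rw [abs_of_nonpos (by linarith : t + 2 - -1 ≤ (0:ℝ)), abs_of_nonpos (by linarith : t + -1 ≤ (0:ℝ)),
        abs_of_nonpos (by linarith : t - 2 - -1 ≤ (0:ℝ)), abs_of_nonpos (by linarith : t ≤ (0:ℝ))]
      ring
  · norm_num
  · norm_num

lemma four_even (t v : ℝ) (hv : v = 1 ∨ v = -1) (h : v = -1 → 2 ≤ |t|) :
    ∑ b : Bool, ∑ a : Bool, |(sg a + sg b + t) * (1 - v * (sg a * sg b))| = 4 * |t| := by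
  have hk := key_even t v hv h
  simp only [Fintype.sum_bool, sg_true, sg_false]
  have e1 : ((-1 : ℝ) + -1 + t) * (1 - v * (-1 * -1)) = (t - 2) * (1 - v) := by ring
  have e2 : ((1 : ℝ) + -1 + t) * (1 - v * (1 * -1)) = t * (1 + v) := by ring
  have e3 : ((-1 : ℝ) + 1 + t) * (1 - v * (-1 * 1)) = t * (1 + v) := by ring
  have e4 : ((1 : ℝ) + 1 + t) * (1 - v * (1 * 1)) = (t + 2) * (1 - v) := by ring
  rw [e1, e2, e3, e4]
  linarith

lemma four_odd (t v : ℝ)
    (h : 3 ≤ t ∨ t ≤ -3 ∨ (t = 1 ∧ v = -1) ∨ (t = -1 ∧ v = 1)) (hv : v = 1 ∨ v = -1) :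
    ∑ b : Bool, ∑ a : Bool, |sg a + sg b + t - v * (sg a * sg b)| = 4 * |t| := by
  have hk := key_odd t v h hv
  simp only [Fintype.sum_bool, sg_true, sg_false]
  have e1 : ((-1 : ℝ) + -1 + t) - v * (-1 * -1) = t - 2 - v := by ring
  have e2 : ((1 : ℝ) + -1 + t) - v * (1 * -1) = t + v := by ring
  have e3 : ((-1 : ℝ) + 1 + t) - v * (-1 * 1) = t + v := by ring
  have e4 : ((1 : ℝ) + 1 + t) - v * (1 * 1) = t + 2 - v := by ring
  rw [e1, e2, e3, e4]
  linarith

lemma sum_fourier_singleton {n : ℕ} (f : (Fin n → Bool) → ℝ) :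
    ∑ i : Fin n, fourier f {i} = (∑ x, f x * S x) / 2 ^ n := by
  unfold fourier S chi
  simp only [Finset.prod_singleton]
  rw [← Finset.sum_div, Finset.sum_comm]
  congr 1
  apply Finset.sum_congr rfl
  intro x _
  rw [Finset.mul_sum]

lemma top_zero {n : ℕ} (f : (Fin (n + 2) → Bool) → ℝ)
    (hdeg : ∀ T : Finset (Fin (n + 2)), n < T.card → fourier f T = 0) :
    ∑ x, f x * chi univ x = 0 := by
  have h := hdeg univ (by simp)
  unfold fourier at h
  exact (div_eq_zero_iff.mp h).resolve_right (by positivity)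

lemma top1_zero {n : ℕ} (f : (Fin (n + 2) → Bool) → ℝ)
    (hdeg : ∀ T : Finset (Fin (n + 2)), n < T.card → fourier f T = 0) :
    ∑ x, f x * (chi univ x * S x) = 0 := by
  have h1 : ∀ x : Fin (n + 2) → Bool, chi univ x * S x = ∑ i, chi (univ.erase i) x := by
    intro x
    unfold S
    rw [Finset.mul_sum]
    apply Finset.sum_congr rfl
    intro i _
    unfold chi
    rw [← Finset.mul_prod_erase univ (fun j => sg (x j)) (mem_univ i)]
    rw [mul_comm (sg (x i)), mul_assoc, sg_mul_self, mul_one]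
  simp only [h1, Finset.mul_sum]
  rw [Finset.sum_comm]
  apply Finset.sum_eq_zero
  intro i _
  have h := hdeg (univ.erase i) (by simp [Finset.card_erase_of_mem])
  unfold fourier at h
  exact (div_eq_zero_iff.mp h).resolve_right (by positivity)

lemma bound_of_dual {n : ℕ} (f g : (Fin n → Bool) → ℝ) (hf : ∀ x, |f x| ≤ 1)
    (hg : ∑ x, f x * g x = 0) :
    ∑ x, f x * S x ≤ ∑ x, |S x - g x| := by
  have h0 : ∑ x, f x * S x = ∑ x, f x * (S x - g x) := by
    simp only [mul_sub, Finset.sum_sub_distrib, hg, sub_zero]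
  rw [h0]
  apply Finset.sum_le_sum
  intro x _
  calc f x * (S x - g x) ≤ |f x * (S x - g x)| := le_abs_self _
    _ = |f x| * |S x - g x| := abs_mul _ _
    _ ≤ 1 * |S x - g x| := mul_le_mul_of_nonneg_right (hf x) (abs_nonneg _)
    _ = |S x - g x| := one_mul _

lemma sum_even (n h : ℕ) (hn : n = 2 * h) :
    ∑ x : Fin (n + 2) → Bool, |S x - (-1 : ℝ) ^ h * (chi univ x * S x)|
      = 4 * ∑ y : Fin n → Bool, |S y| := by
  rw [sum_cons, sum_cons, Finset.mul_sum]
  apply Finset.sum_congr rfl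
  intro y _
  have e : ∀ a b : Bool,
      S (Fin.cons a (Fin.cons b y) : Fin (n + 2) → Bool)
        - (-1 : ℝ) ^ h * (chi univ (Fin.cons a (Fin.cons b y) : Fin (n + 2) → Bool)
            * S (Fin.cons a (Fin.cons b y) : Fin (n + 2) → Bool))
      = (sg a + sg b + S y) * (1 - ((-1 : ℝ) ^ h * chi univ y) * (sg a * sg b)) := by
    intro a b
    rw [S_cons, S_cons, chi_cons, chi_cons]
    ring
  simp only [e]
  apply four_even
  · rw [chi_eq, ← pow_add]
    exact neg_one_pow_eq_or ℝ _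
  · intro hv1
    rw [chi_eq, ← pow_add] at hv1
    have hm : cnt y ≠ h := by
      intro hm
      rw [hm, ← two_mul, pow_mul] at hv1
      norm_num at hv1
    have hnr : (n : ℝ) = 2 * (h : ℝ) := by rw [hn]; push_cast; ring
    rw [S_eq, hnr]
    rcases lt_or_gt_of_ne hm with hlt | hgt
    · have h3 : (cnt y : ℝ) + 1 ≤ h := by exact_mod_cast hlt
      rw [abs_of_nonneg (by linarith)]
      linarith
    · have h3 : (h : ℝ) + 1 ≤ cnt y := by exact_mod_cast hgt
      rw [abs_of_nonpos (by linarith)]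
      linarith

lemma sum_odd (n j : ℕ) (hn : n = 2 * j + 1) :
    ∑ x : Fin (n + 2) → Bool, |S x - (-1 : ℝ) ^ (j + 1) * chi univ x|
      = 4 * ∑ y : Fin n → Bool, |S y| := by
  rw [sum_cons, sum_cons, Finset.mul_sum]
  apply Finset.sum_congr rfl
  intro y _
  have e : ∀ a b : Bool,
      S (Fin.cons a (Fin.cons b y) : Fin (n + 2) → Bool)
        - (-1 : ℝ) ^ (j + 1) * chi univ (Fin.cons a (Fin.cons b y) : Fin (n + 2) → Bool)
      = sg a + sg b + S y - ((-1 : ℝ) ^ (j + 1) * chi univ y) * (sg a * sg b) := by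
    intro a b
    rw [S_cons, S_cons, chi_cons, chi_cons]
    ring
  simp only [e]
  apply four_odd
  · have hnr : (n : ℝ) = 2 * (j : ℝ) + 1 := by rw [hn]; push_cast; ring
    rw [chi_eq, ← pow_add, S_eq, hnr]
    rcases lt_trichotomy (cnt y) j with hlt | heq | hgt
    · left
      have h3 : (cnt y : ℝ) + 1 ≤ j := by exact_mod_cast hlt
      linarith
    · right; right; left
      rw [heq]
      refine ⟨by ring, ?_⟩
      have : j + 1 + j = 2 * j + 1 := by ring
      rw [this, pow_succ, pow_mul]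
      norm_num
    · rcases Nat.lt_or_ge (j + 1) (cnt y) with h4 | h4
      · right; left
        have h3 : (j : ℝ) + 1 + 1 ≤ cnt y := by exact_mod_cast h4
        linarith
      · right; right; right
        have h5 : cnt y = j + 1 := by omega
        rw [h5]
        refine ⟨by push_cast; ring, ?_⟩
        have : j + 1 + (j + 1) = 2 * (j + 1) := by ring
        rw [this, pow_mul]
        norm_num
  · rw [chi_eq, ← pow_add]
    exact neg_one_pow_eq_or ℝ _

/-- **Main result.** If `f : {-1,1}^(n+2) → [-1,1]` (in particular any Boolean function) has no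
Fourier coefficient of order more than `n`, i.e. `deg f ≤ n = (number of variables) - 2`, then
`∑_i f̂({i}) ≤ B_n`. -/
theorem result (n : ℕ) (f : (Fin (n + 2) → Bool) → ℝ)
    (hf : ∀ x, |f x| ≤ 1)
    (hdeg : ∀ T : Finset (Fin (n + 2)), n < T.card → fourier f T = 0) :
    ∑ i : Fin (n + 2), fourier f {i} ≤ B n := by
  rw [sum_fourier_singleton]
  have hB : B n = (4 * ∑ y : Fin n → Bool, |S y|) / 2 ^ (n + 2) := by
    unfold B S
    rw [pow_add]
    field_simp
    ring
  rw [hB]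
  apply div_le_div_of_nonneg_right _ (by positivity)
  rcases Nat.even_or_odd' n with ⟨h, hn | hn⟩
  · rw [← sum_even n h hn]
    apply bound_of_dual f _ hf
    have := top1_zero f hdeg
    simp only [mul_left_comm (f _) ((-1 : ℝ) ^ h) _, ← Finset.mul_sum, this, mul_zero]
  · rw [← sum_odd n h hn]
    apply bound_of_dual f _ hf
    have := top_zero f hdeg
    simp only [mul_left_comm (f _) ((-1 : ℝ) ^ (h + 1)) _, ← Finset.mul_sum, this, mul_zero]

end Vale.Agent.Results.P047.DegTopMinusTwo
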