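import Mathlib
import Vale.Agent.P047lib.TopMinusTwo

namespace Vale.Agent.P047lib.Biased

open Finset
open Vale.Agent.Results.P047.DegTopMinusTwo

/-- weight of `x` under the product measure on the cube in which every coordinate has mean `t` -/
noncomputable def wt {n : ℕ} (t : ℝ) (x : Fin n → Bool) : ℝ := ∏ i, (1 + t * sg (x i)) / 2

/-- expectation under the product measure with all coordinate means equal to `t` -/
noncomputable def Ex {n : ℕ} (t : ℝ) (f : (Fin n → Bool) → ℝ) : ℝ := ∑ x, wt t x * f x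

/-- restriction of `f` to first coordinate `+1` (bit `false`) -/
def r0 {n : ℕ} (f : (Fin (n + 1) → Bool) → ℝ) : (Fin n → Bool) → ℝ := fun y => f (Fin.cons false y)

/-- restriction of `f` to first coordinate `-1` (bit `true`) -/
def r1 {n : ℕ} (f : (Fin (n + 1) → Bool) → ℝ) : (Fin n → Bool) → ℝ := fun y => f (Fin.cons true y)

/-- a general sum over coordinates of expectations of local expressions -/
noncomputable def G {n : ℕ} (Φ : Bool → ℝ → ℝ → ℝ) (t : ℝ) (f : (Fin n → Bool) → ℝ) : ℝ :=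
  ∑ i, Ex t (fun x => Φ (x i) (f x) (f (Function.update x i (!x i))))

/-- energy: sum over coordinates of the expected squared discrete derivative -/
noncomputable def En {n : ℕ} (t : ℝ) (f : (Fin n → Bool) → ℝ) : ℝ :=
  G (fun _ a b => ((a - b) / 2) ^ 2) t f

/-- sum over coordinates of the expected (signed) discrete derivative -/
noncomputable def Ds {n : ℕ} (t : ℝ) (f : (Fin n → Bool) → ℝ) : ℝ :=
  G (fun s a b => sg s * ((a - b) / 2)) t f

lemma wt_cons {n : ℕ} (t : ℝ) (a : Bool) (y : Fin n → Bool) :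
    wt t (Fin.cons a y : Fin (n + 1) → Bool) = (1 + t * sg a) / 2 * wt t y := by
  unfold wt
  rw [Fin.prod_univ_succ]
  simp

lemma Ex_cons {n : ℕ} (t : ℝ) (f : (Fin (n + 1) → Bool) → ℝ) :
    Ex t f = (1 + t) / 2 * Ex t (r0 f) + (1 - t) / 2 * Ex t (r1 f) := by
  unfold Ex
  rw [sum_cons]
  simp only [Fintype.sum_bool, wt_cons, sg_true, sg_false, r0, r1]
  rw [Finset.sum_add_distrib, Finset.mul_sum, Finset.mul_sum, add_comm]
  congr 1
  · apply Finset.sum_congr rfl; intro y _; ring
  · apply Finset.sum_congr rfl; intro y _; ring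

lemma Ex_lin {n : ℕ} (t a b : ℝ) (f g : (Fin n → Bool) → ℝ) :
    Ex t (fun x => a * f x + b * g x) = a * Ex t f + b * Ex t g := by
  unfold Ex
  rw [Finset.mul_sum, Finset.mul_sum, ← Finset.sum_add_distrib]
  apply Finset.sum_congr rfl; intro y _; ring

lemma G_cons {n : ℕ} (Φ : Bool → ℝ → ℝ → ℝ) (t : ℝ) (f : (Fin (n + 1) → Bool) → ℝ) :
    G Φ t f = ((1 + t) / 2 * Ex t (fun y => Φ false (r0 f y) (r1 f y))
        + (1 - t) / 2 * Ex t (fun y => Φ true (r1 f y) (r0 f y)))
      + ((1 + t) / 2 * G Φ t (r0 f) + (1 - t) / 2 * G Φ t (r1 f)) := by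
  unfold G
  rw [Fin.sum_univ_succ]
  have e1 : r0 (fun x : Fin (n + 1) → Bool => Φ (x 0) (f x) (f (Function.update x 0 (!x 0))))
      = fun y => Φ false (r0 f y) (r1 f y) := by
    funext y
    simp [r0, r1, Fin.update_cons_zero]
  have e2 : r1 (fun x : Fin (n + 1) → Bool => Φ (x 0) (f x) (f (Function.update x 0 (!x 0))))
      = fun y => Φ true (r1 f y) (r0 f y) := by
    funext y
    simp [r0, r1, Fin.update_cons_zero]
  have e3 : ∀ j : Fin n,
      r0 (fun x : Fin (n + 1) → Bool =>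
          Φ (x j.succ) (f x) (f (Function.update x j.succ (!x j.succ))))
      = fun y => Φ (y j) (r0 f y) (r0 f (Function.update y j (!y j))) := by
    intro j
    funext y
    simp only [r0, Fin.cons_succ, ← Fin.cons_update]
  have e4 : ∀ j : Fin n,
      r1 (fun x : Fin (n + 1) → Bool =>
          Φ (x j.succ) (f x) (f (Function.update x j.succ (!x j.succ))))
      = fun y => Φ (y j) (r1 f y) (r1 f (Function.update y j (!y j))) := by
    intro j
    funext y
    simp only [r1, Fin.cons_succ, ← Fin.cons_update]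
  rw [Ex_cons, e1, e2]
  congr 1
  rw [Finset.mul_sum, Finset.mul_sum, ← Finset.sum_add_distrib]
  apply Finset.sum_congr rfl
  intro j _
  rw [Ex_cons, e3, e4]


lemma En_cons {n : ℕ} (t : ℝ) (f : (Fin (n + 1) → Bool) → ℝ) :
    En t f = Ex t (fun y => ((r0 f y - r1 f y) / 2) ^ 2)
      + ((1 + t) / 2 * En t (r0 f) + (1 - t) / 2 * En t (r1 f)) := by
  unfold En
  rw [G_cons]
  congr 1
  have e : (fun y : Fin n → Bool => ((r1 f y - r0 f y) / 2) ^ 2)
      = fun y => ((r0 f y - r1 f y) / 2) ^ 2 := by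
    funext y; ring
  rw [e]
  ring

lemma Ds_cons {n : ℕ} (t : ℝ) (f : (Fin (n + 1) → Bool) → ℝ) :
    Ds t f = Ex t (fun y => (r0 f y - r1 f y) / 2)
      + ((1 + t) / 2 * Ds t (r0 f) + (1 - t) / 2 * Ds t (r1 f)) := by
  unfold Ds
  rw [G_cons]
  congr 1
  have e1 : (fun y : Fin n → Bool => sg false * ((r0 f y - r1 f y) / 2))
      = fun y => (r0 f y - r1 f y) / 2 := by
    funext y; rw [sg_false]; ring
  have e2 : (fun y : Fin n → Bool => sg true * ((r1 f y - r0 f y) / 2))
      = fun y => (r0 f y - r1 f y) / 2 := by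
    funext y; rw [sg_true]; ring
  rw [e1, e2]
  ring

lemma chi_map {n : ℕ} (T : Finset (Fin n)) (a : Bool) (y : Fin n → Bool) :
    chi (T.map (Fin.succEmb n)) (Fin.cons a y : Fin (n + 1) → Bool) = chi T y := by
  unfold chi
  rw [Finset.prod_map]
  simp

lemma zero_notMem_map {n : ℕ} (T : Finset (Fin n)) : (0 : Fin (n + 1)) ∉ T.map (Fin.succEmb n) := by
  intro h
  rcases Finset.mem_map.mp h with ⟨j, _, hj⟩
  exact Fin.succ_ne_zero j hj

lemma chi_insert {n : ℕ} (T : Finset (Fin n)) (a : Bool) (y : Fin n → Bool) :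
    chi (insert 0 (T.map (Fin.succEmb n))) (Fin.cons a y : Fin (n + 1) → Bool) = sg a * chi T y := by
  have h := chi_map T a y
  unfold chi at h ⊢
  rw [Finset.prod_insert (zero_notMem_map T), h]
  simp

lemma fourier_map {n : ℕ} (f : (Fin (n + 1) → Bool) → ℝ) (T : Finset (Fin n)) :
    fourier f (T.map (Fin.succEmb n)) = (fourier (r0 f) T + fourier (r1 f) T) / 2 := by
  unfold Vale.Agent.Results.P047.DegTopMinusTwo.fourier
  rw [sum_cons]
  simp only [Fintype.sum_bool, chi_map, r0, r1]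
  rw [Finset.sum_add_distrib, pow_succ]
  field_simp
  ring

lemma fourier_insert {n : ℕ} (f : (Fin (n + 1) → Bool) → ℝ) (T : Finset (Fin n)) :
    fourier f (insert 0 (T.map (Fin.succEmb n))) = (fourier (r0 f) T - fourier (r1 f) T) / 2 := by
  unfold Vale.Agent.Results.P047.DegTopMinusTwo.fourier
  rw [sum_cons]
  simp only [Fintype.sum_bool, chi_insert, r0, r1, sg_true, sg_false]
  rw [Finset.sum_add_distrib, pow_succ]
  have e1 : ∑ y : Fin n → Bool, f (Fin.cons true y) * (-1 * chi T y)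
      = - ∑ y : Fin n → Bool, f (Fin.cons true y) * chi T y := by
    rw [← Finset.sum_neg_distrib]
    apply Finset.sum_congr rfl; intro y _; ring
  have e2 : ∑ y : Fin n → Bool, f (Fin.cons false y) * (1 * chi T y)
      = ∑ y : Fin n → Bool, f (Fin.cons false y) * chi T y := by
    apply Finset.sum_congr rfl; intro y _; ring
  rw [e1, e2]
  field_simp
  ring

lemma fourier_lin {n : ℕ} (a b : ℝ) (f g : (Fin n → Bool) → ℝ) (T : Finset (Fin n)) :
    fourier (fun x => a * f x + b * g x) T = a * fourier f T + b * fourier g T := by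
  unfold Vale.Agent.Results.P047.DegTopMinusTwo.fourier
  have e : ∑ x : Fin n → Bool, (a * f x + b * g x) * chi T x
      = a * ∑ x : Fin n → Bool, f x * chi T x + b * ∑ x : Fin n → Bool, g x * chi T x := by
    rw [Finset.mul_sum, Finset.mul_sum, ← Finset.sum_add_distrib]
    apply Finset.sum_congr rfl; intro y _; ring
  rw [e]
  ring

lemma card_map_succ {n : ℕ} (T : Finset (Fin n)) : (T.map (Fin.succEmb n)).card = T.card :=
  Finset.card_map _

lemma card_insert_map {n : ℕ} (T : Finset (Fin n)) :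
    (insert 0 (T.map (Fin.succEmb n))).card = T.card + 1 := by
  rw [Finset.card_insert_of_notMem (zero_notMem_map T), Finset.card_map]


lemma quad_split {n : ℕ} (t : ℝ) (a b : (Fin n → Bool) → ℝ) :
    (1 + t) / 2 * Ex t (fun y => (a y) ^ 2) + (1 - t) / 2 * Ex t (fun y => (b y) ^ 2)
      = Ex t (fun y => ((1 + t) / 2 * a y + (1 - t) / 2 * b y) ^ 2)
        + (1 - t ^ 2) * Ex t (fun y => ((1 / 2) * a y + (-1 / 2) * b y) ^ 2) := by
  unfold Ex
  simp only [Finset.mul_sum, ← Finset.sum_add_distrib]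
  apply Finset.sum_congr rfl; intro y _; ring

lemma En_split {n : ℕ} (t : ℝ) (f0 f1 : (Fin n → Bool) → ℝ) :
    (1 + t) / 2 * En t f0 + (1 - t) / 2 * En t f1
      = En t (fun y => (1 + t) / 2 * f0 y + (1 - t) / 2 * f1 y)
        + (1 - t ^ 2) * En t (fun y => (1 / 2) * f0 y + (-1 / 2) * f1 y) := by
  unfold En G
  rw [Finset.mul_sum, Finset.mul_sum, Finset.mul_sum, ← Finset.sum_add_distrib,
    ← Finset.sum_add_distrib]
  apply Finset.sum_congr rfl
  intro j _
  rw [quad_split t (fun y => (f0 y - f0 (Function.update y j (!y j))) / 2)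
    (fun y => (f1 y - f1 (Function.update y j (!y j))) / 2)]
  congr 1
  · congr 1
    funext y
    ring
  · congr 1
    congr 1
    funext y
    ring

lemma Ex_zero (t : ℝ) (f : (Fin 0 → Bool) → ℝ) : Ex t f = f Fin.elim0 := by
  unfold Ex wt
  rw [Fintype.sum_unique]
  simp only [Finset.univ_eq_empty, Finset.prod_empty, one_mul]
  congr 1

lemma G_zero (Φ : Bool → ℝ → ℝ → ℝ) (t : ℝ) (f : (Fin 0 → Bool) → ℝ) : G Φ t f = 0 := by
  unfold G
  simp

lemma fourier_zero (f : (Fin 0 → Bool) → ℝ) : fourier f ∅ = f Fin.elim0 := by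
  unfold Vale.Agent.Results.P047.DegTopMinusTwo.fourier chi
  rw [Fintype.sum_unique]
  simp only [Finset.prod_empty, mul_one, pow_zero, div_one]
  congr 1

/-- The degree inequality in `L²` form: if all Fourier coefficients of order `≥ d` vanish then
`(1 - t²) · En_t(f) ≤ (d - 1) · E_t[f²]`. -/
theorem poincareA (t : ℝ) (ht : |t| ≤ 1) :
    ∀ (n : ℕ) (f : (Fin n → Bool) → ℝ) (d : ℤ),
      (∀ T : Finset (Fin n), d ≤ (T.card : ℤ) → fourier f T = 0) →
      (1 - t ^ 2) * En t f ≤ ((d : ℝ) - 1) * Ex t (fun x => (f x) ^ 2) := by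
  have hu : 0 ≤ 1 - t ^ 2 := by
    have := abs_le.mp ht
    nlinarith
  intro n
  induction n with
  | zero =>
    intro f d hf
    have hE : En t f = 0 := G_zero _ t f
    rw [hE, mul_zero, Ex_zero]
    by_cases hd : 1 ≤ d
    · have : (0 : ℝ) ≤ (d : ℝ) - 1 := by
        have : (1 : ℝ) ≤ (d : ℝ) := by exact_mod_cast hd
        linarith
      positivity
    · have h0 := hf ∅ (by simp; omega)
      rw [fourier_zero] at h0
      rw [h0]
      simp
  | succ n ih =>
    intro f d hf
    obtain ⟨g, hg⟩ : ∃ g : (Fin n → Bool) → ℝ,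
        g = fun y => (1 + t) / 2 * r0 f y + (1 - t) / 2 * r1 f y := ⟨_, rfl⟩
    obtain ⟨h, hh⟩ : ∃ h : (Fin n → Bool) → ℝ,
        h = fun y => (1 / 2) * r0 f y + (-1 / 2) * r1 f y := ⟨_, rfl⟩
    have hF : ∀ T : Finset (Fin n), d ≤ (T.card : ℤ) + 1 →
        fourier (r0 f) T - fourier (r1 f) T = 0 := by
      intro T hT
      have h1 := hf (insert 0 (T.map (Fin.succEmb n))) (by rw [card_insert_map]; push_cast; omega)
      rw [fourier_insert] at h1
      linarith
    have hF2 : ∀ T : Finset (Fin n), d ≤ (T.card : ℤ) →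
        fourier (r0 f) T + fourier (r1 f) T = 0 := by
      intro T hT
      have h1 := hf (T.map (Fin.succEmb n)) (by rw [card_map_succ]; exact hT)
      rw [fourier_map] at h1
      linarith
    have hgdeg : ∀ T : Finset (Fin n), d ≤ (T.card : ℤ) → fourier g T = 0 := by
      intro T hT
      rw [hg, fourier_lin]
      have h1 := hF T (by omega)
      have h2 := hF2 T hT
      have e0 : fourier (r0 f) T = 0 := by linarith
      have e1 : fourier (r1 f) T = 0 := by linarith
      rw [e0, e1]; ring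
    have hhdeg : ∀ T : Finset (Fin n), d - 1 ≤ (T.card : ℤ) → fourier h T = 0 := by
      intro T hT
      rw [hh, fourier_lin]
      have h1 := hF T (by omega)
      linarith
    have IHg := ih g d hgdeg
    have IHh := ih h (d - 1) hhdeg
    push_cast at IHh
    have hEn : En t f = Ex t (fun y => (h y) ^ 2) + (En t g + (1 - t ^ 2) * En t h) := by
      rw [En_cons, En_split, hg, hh]
      congr 2
      funext y
      ring
    have hEx : Ex t (fun x => (f x) ^ 2)
        = Ex t (fun y => (g y) ^ 2) + (1 - t ^ 2) * Ex t (fun y => (h y) ^ 2) := by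
      rw [Ex_cons, hg, hh]
      exact quad_split t (r0 f) (r1 f)
    rw [hEn, hEx]
    have h3 := mul_le_mul_of_nonneg_left IHh hu
    nlinarith [h3, IHg]


/-- The degree inequality in variance form: if `deg f ≤ D` then
`(1 - t²) · En_t(f) ≤ D · Var_t(f)`. -/
theorem poincareB (t : ℝ) (ht : |t| ≤ 1) :
    ∀ (n : ℕ) (f : (Fin n → Bool) → ℝ) (D : ℕ),
      (∀ T : Finset (Fin n), D < T.card → fourier f T = 0) →
      (1 - t ^ 2) * En t f ≤ (D : ℝ) * (Ex t (fun x => (f x) ^ 2) - (Ex t f) ^ 2) := by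
  have hu : 0 ≤ 1 - t ^ 2 := by
    have := abs_le.mp ht
    nlinarith
  intro n
  induction n with
  | zero =>
    intro f D _
    have hE : En t f = 0 := G_zero _ t f
    rw [hE, mul_zero, Ex_zero, Ex_zero]
    simp
  | succ n ih =>
    intro f D hf
    obtain ⟨g, hg⟩ : ∃ g : (Fin n → Bool) → ℝ,
        g = fun y => (1 + t) / 2 * r0 f y + (1 - t) / 2 * r1 f y := ⟨_, rfl⟩
    obtain ⟨h, hh⟩ : ∃ h : (Fin n → Bool) → ℝ,
        h = fun y => (1 / 2) * r0 f y + (-1 / 2) * r1 f y := ⟨_, rfl⟩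
    have hF : ∀ T : Finset (Fin n), D < T.card + 1 →
        fourier (r0 f) T - fourier (r1 f) T = 0 := by
      intro T hT
      have h1 := hf (insert 0 (T.map (Fin.succEmb n))) (by rw [card_insert_map]; exact hT)
      rw [fourier_insert] at h1
      linarith
    have hF2 : ∀ T : Finset (Fin n), D < T.card →
        fourier (r0 f) T + fourier (r1 f) T = 0 := by
      intro T hT
      have h1 := hf (T.map (Fin.succEmb n)) (by rw [card_map_succ]; exact hT)
      rw [fourier_map] at h1
      linarith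
    have hgdeg : ∀ T : Finset (Fin n), D < T.card → fourier g T = 0 := by
      intro T hT
      rw [hg, fourier_lin]
      have h1 := hF T (by omega)
      have h2 := hF2 T hT
      have e0 : fourier (r0 f) T = 0 := by linarith
      have e1 : fourier (r1 f) T = 0 := by linarith
      rw [e0, e1]; ring
    have hhdeg : ∀ T : Finset (Fin n), (D : ℤ) ≤ (T.card : ℤ) → fourier h T = 0 := by
      intro T hT
      rw [hh, fourier_lin]
      have h1 := hF T (by omega)
      linarith
    have IHg := ih g D hgdeg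
    have IHh := poincareA t ht n h (D : ℤ) hhdeg
    push_cast at IHh
    have hEn : En t f = Ex t (fun y => (h y) ^ 2) + (En t g + (1 - t ^ 2) * En t h) := by
      rw [En_cons, En_split, hg, hh]
      congr 2
      funext y
      ring
    have hEx : Ex t (fun x => (f x) ^ 2)
        = Ex t (fun y => (g y) ^ 2) + (1 - t ^ 2) * Ex t (fun y => (h y) ^ 2) := by
      rw [Ex_cons, hg, hh]
      exact quad_split t (r0 f) (r1 f)
    have hE1 : Ex t f = Ex t g := by
      rw [Ex_cons, hg, Ex_lin]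
    rw [hEn, hEx, hE1]
    have h3 := mul_le_mul_of_nonneg_left IHh hu
    nlinarith [h3, IHg]

lemma wt_nonneg {n : ℕ} (t : ℝ) (ht : |t| ≤ 1) (x : Fin n → Bool) : 0 ≤ wt t x := by
  unfold wt
  apply Finset.prod_nonneg
  intro i _
  have := abs_le.mp ht
  cases x i <;> simp [sg] <;> linarith

lemma wt_pos {n : ℕ} (t : ℝ) (ht : |t| < 1) (x : Fin n → Bool) : 0 < wt t x := by
  unfold wt
  apply Finset.prod_pos
  intro i _
  have := abs_lt.mp ht
  cases x i <;> simp [sg] <;> linarith

lemma Ex_one (t : ℝ) : ∀ n : ℕ, Ex t (fun _ : Fin n → Bool => (1 : ℝ)) = 1 := by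
  intro n
  induction n with
  | zero => rw [Ex_zero]
  | succ n ih =>
    rw [Ex_cons]
    have e0 : r0 (fun _ : Fin (n + 1) → Bool => (1 : ℝ)) = fun _ => 1 := rfl
    have e1 : r1 (fun _ : Fin (n + 1) → Bool => (1 : ℝ)) = fun _ => 1 := rfl
    rw [e0, e1, ih]
    ring

lemma sum_wt (t : ℝ) (n : ℕ) : ∑ x : Fin n → Bool, wt t x = 1 := by
  have h := Ex_one t n
  unfold Ex at h
  simpa using h

lemma Ex_abs_le_of_le {n : ℕ} (t : ℝ) (ht : |t| ≤ 1) (φ ψ : (Fin n → Bool) → ℝ)
    (h : ∀ x, |φ x| ≤ ψ x) : |Ex t φ| ≤ Ex t ψ := by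
  unfold Ex
  calc |∑ x, wt t x * φ x| ≤ ∑ x, |wt t x * φ x| := Finset.abs_sum_le_sum_abs _ _
    _ ≤ ∑ x, wt t x * ψ x := by
      apply Finset.sum_le_sum
      intro x _
      rw [abs_mul, abs_of_nonneg (wt_nonneg t ht x)]
      exact mul_le_mul_of_nonneg_left (h x) (wt_nonneg t ht x)

lemma Ex_abs_le {n : ℕ} (t : ℝ) (ht : |t| ≤ 1) (f : (Fin n → Bool) → ℝ)
    (hf : ∀ x, |f x| ≤ 1) : |Ex t f| ≤ 1 := by
  have h := Ex_abs_le_of_le t ht f (fun _ => 1) hf
  rwa [Ex_one] at h

lemma Ex_sq_bool {n : ℕ} (t : ℝ) (f : (Fin n → Bool) → ℝ)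
    (hf : ∀ x, f x = 1 ∨ f x = -1) : Ex t (fun x => (f x) ^ 2) = 1 := by
  have e : (fun x => (f x) ^ 2) = fun _ : Fin n → Bool => (1 : ℝ) := by
    funext x
    rcases hf x with h | h <;> rw [h] <;> norm_num
  rw [e, Ex_one]

lemma Ds_le_En {n : ℕ} (t : ℝ) (ht : |t| ≤ 1) (f : (Fin n → Bool) → ℝ)
    (hf : ∀ x, f x = 1 ∨ f x = -1) : |Ds t f| ≤ En t f := by
  unfold Ds En G
  calc |∑ i, Ex t (fun x => sg (x i) * ((f x - f (Function.update x i (!x i))) / 2))|
      ≤ ∑ i, |Ex t (fun x => sg (x i) * ((f x - f (Function.update x i (!x i))) / 2))| :=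
        Finset.abs_sum_le_sum_abs _ _
    _ ≤ ∑ i, Ex t (fun x => ((f x - f (Function.update x i (!x i))) / 2) ^ 2) := by
      apply Finset.sum_le_sum
      intro i _
      apply Ex_abs_le_of_le t ht
      intro x
      rcases hf x with h | h <;> rcases hf (Function.update x i (!x i)) with h' | h' <;>
        rw [h, h'] <;> cases x i <;> simp [sg] <;> norm_num

lemma hasDerivAt_Ex : ∀ (n : ℕ) (f : (Fin n → Bool) → ℝ) (t : ℝ),
    HasDerivAt (fun s => Ex s f) (Ds t f) t := by
  intro n
  induction n with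
  | zero =>
    intro f t
    have e : (fun s => Ex s f) = fun _ => f Fin.elim0 := by
      funext s; exact Ex_zero s f
    have e2 : Ds t f = 0 := G_zero _ t f
    rw [e, e2]
    exact hasDerivAt_const t _
  | succ n ih =>
    intro f t
    have e : (fun s => Ex s f)
        = fun s => (1 + s) / 2 * Ex s (r0 f) + (1 - s) / 2 * Ex s (r1 f) := by
      funext s; exact Ex_cons s f
    rw [e]
    have h0 := ih (r0 f) t
    have h1 := ih (r1 f) t
    have ha : HasDerivAt (fun s : ℝ => (1 + s) / 2) (1 / 2) t :=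
      ((hasDerivAt_id t).const_add 1).div_const 2
    have hb : HasDerivAt (fun s : ℝ => (1 - s) / 2) (-1 / 2) t := by
      have := ((hasDerivAt_id t).const_sub 1).div_const 2
      simpa using this
    have hsum := (ha.mul h0).add (hb.mul h1)
    have e3 : (fun y : Fin n → Bool => (r0 f y - r1 f y) / 2)
        = fun y => (1 / 2) * r0 f y + (-1 / 2) * r1 f y := by
      funext y; ring
    have hD : Ds t f = 1 / 2 * Ex t (r0 f) + (1 + t) / 2 * Ds t (r0 f)
        + (-1 / 2 * Ex t (r1 f) + (1 - t) / 2 * Ds t (r1 f)) := by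
      rw [Ds_cons, e3, Ex_lin]
      ring
    rw [hD]
    exact hsum

lemma Ex_zero_eq_fourier {n : ℕ} (φ : (Fin n → Bool) → ℝ) : Ex 0 φ = fourier φ ∅ := by
  unfold Ex wt Vale.Agent.Results.P047.DegTopMinusTwo.fourier chi
  simp only [zero_mul, add_zero, Finset.prod_const, Finset.card_univ, Fintype.card_fin,
    Finset.prod_empty, mul_one]
  rw [Finset.sum_div]
  apply Finset.sum_congr rfl
  intro x _
  rw [one_div, inv_pow]
  field_simp

lemma Ds_zero_eq : ∀ (n : ℕ) (f : (Fin n → Bool) → ℝ), Ds 0 f = ∑ i, fourier f {i} := by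
  intro n
  induction n with
  | zero =>
    intro f
    rw [show Ds 0 f = 0 from G_zero _ 0 f]
    simp
  | succ n ih =>
    intro f
    rw [Ds_cons, Fin.sum_univ_succ, ih (r0 f), ih (r1 f)]
    have e3 : (fun y : Fin n → Bool => (r0 f y - r1 f y) / 2)
        = fun y => (1 / 2) * r0 f y + (-1 / 2) * r1 f y := by
      funext y; ring
    rw [e3, Ex_lin, Ex_zero_eq_fourier, Ex_zero_eq_fourier]
    have e0 : ({0} : Finset (Fin (n + 1))) = insert 0 ((∅ : Finset (Fin n)).map (Fin.succEmb n)) := by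
      simp
    have e1 : ∀ j : Fin n, ({j.succ} : Finset (Fin (n + 1))) = ({j} : Finset (Fin n)).map (Fin.succEmb n) := by
      intro j; simp
    rw [e0, fourier_insert]
    simp only [e1, fourier_map]
    rw [Finset.mul_sum, Finset.mul_sum, ← Finset.sum_add_distrib]
    have : ∑ x : Fin n, (fourier (r0 f) {x} + fourier (r1 f) {x}) / 2
        = ∑ i : Fin n, ((1 + 0) / 2 * fourier (r0 f) {i} + (1 - 0) / 2 * fourier (r1 f) {i}) := by
      apply Finset.sum_congr rfl; intro j _; ring
    rw [this]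
    ring


open Polynomial in
lemma exists_poly : ∀ (n : ℕ) (f : (Fin n → Bool) → ℝ) (d : ℤ),
    (∀ T : Finset (Fin n), d < (T.card : ℤ) → fourier f T = 0) →
    ∃ P : ℝ[X], (∀ k : ℕ, d < (k : ℤ) → P.coeff k = 0) ∧ ∀ t : ℝ, P.eval t = Ex t f := by
  intro n
  induction n with
  | zero =>
    intro f d hf
    refine ⟨C (f Fin.elim0), ?_, ?_⟩
    · intro k hk
      rcases Nat.eq_zero_or_pos k with rfl | hpos
      · have h0 := hf ∅ (by simpa using hk)
        rw [fourier_zero] at h0
        rw [h0]; simp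
      · rw [Polynomial.coeff_C]
        rw [if_neg (by omega)]
    · intro t
      rw [Polynomial.eval_C, Ex_zero]
  | succ n ih =>
    intro f d hf
    obtain ⟨g, hg⟩ : ∃ g : (Fin n → Bool) → ℝ,
        g = fun y => (1 / 2) * r0 f y + (1 / 2) * r1 f y := ⟨_, rfl⟩
    obtain ⟨h, hh⟩ : ∃ h : (Fin n → Bool) → ℝ,
        h = fun y => (1 / 2) * r0 f y + (-1 / 2) * r1 f y := ⟨_, rfl⟩
    have hgdeg : ∀ T : Finset (Fin n), d < (T.card : ℤ) → fourier g T = 0 := by
      intro T hT
      have h1 := hf (T.map (Fin.succEmb n)) (by rw [card_map_succ]; exact hT)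
      rw [fourier_map] at h1
      rw [hg, fourier_lin]
      linarith
    have hhdeg : ∀ T : Finset (Fin n), d - 1 < (T.card : ℤ) → fourier h T = 0 := by
      intro T hT
      have h1 := hf (insert 0 (T.map (Fin.succEmb n))) (by rw [card_insert_map]; push_cast; omega)
      rw [fourier_insert] at h1
      rw [hh, fourier_lin]
      linarith
    obtain ⟨Pg, hPg1, hPg2⟩ := ih g d hgdeg
    obtain ⟨Ph, hPh1, hPh2⟩ := ih h (d - 1) hhdeg
    refine ⟨Pg + X * Ph, ?_, ?_⟩
    · intro k hk
      rw [Polynomial.coeff_add, hPg1 k hk, zero_add]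
      rcases k with _ | j
      · exact Polynomial.coeff_X_mul_zero Ph
      · rw [Polynomial.coeff_X_mul]
        apply hPh1
        push_cast at hk
        omega
    · intro t
      rw [Polynomial.eval_add, Polynomial.eval_mul, Polynomial.eval_X, hPg2, hPh2, Ex_cons, hg, hh,
        Ex_lin, Ex_lin]
      ring

/-- if `f` takes the value `-1` somewhere, its biased mean is `< 1` for `|t| < 1` -/
lemma Ex_lt_one {n : ℕ} (t : ℝ) (ht : |t| < 1) (f : (Fin n → Bool) → ℝ)
    (hf : ∀ x, f x = 1 ∨ f x = -1) (x0 : Fin n → Bool) (hx0 : f x0 = -1) : Ex t f < 1 := by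
  have h1 : (1 : ℝ) - Ex t f = ∑ x, wt t x * (1 - f x) := by
    unfold Ex
    have hs := sum_wt t n
    have e : ∑ x : Fin n → Bool, wt t x * (1 - f x)
        = ∑ x : Fin n → Bool, wt t x - ∑ x : Fin n → Bool, wt t x * f x := by
      rw [← Finset.sum_sub_distrib]
      apply Finset.sum_congr rfl; intro x _; ring
    rw [e, hs]
  have h2 : wt t x0 * (1 - f x0) ≤ ∑ x, wt t x * (1 - f x) := by
    apply Finset.single_le_sum (f := fun x => wt t x * (1 - f x))
    · intro x _
      apply mul_nonneg (wt_nonneg t ht.le x)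
      rcases hf x with h | h <;> rw [h] <;> norm_num
    · exact Finset.mem_univ x0
  have h3 : 0 < wt t x0 * (1 - f x0) := by
    rw [hx0]
    have := wt_pos t ht x0
    linarith
  linarith

open Polynomial in
/-- Summary: the biased mean of a Boolean function of degree `≤ D` is a polynomial `P` of degree
`≤ D`, bounded by `1` on `[-1,1]`, satisfying `(1-t²)|P'(t)| ≤ D(1-P(t)²)` there, and `P'(0)` is the
sum of the degree-one Fourier coefficients. -/
theorem boolean_poly {n : ℕ} (f : (Fin n → Bool) → ℝ) (hf : ∀ x, f x = 1 ∨ f x = -1) (D : ℕ)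
    (hdeg : ∀ T : Finset (Fin n), D < T.card → fourier f T = 0) :
    ∃ P : ℝ[X], P.natDegree ≤ D ∧ (∀ t : ℝ, P.eval t = Ex t f) ∧
      (∀ t : ℝ, |t| ≤ 1 → |P.eval t| ≤ 1) ∧
      (∀ t : ℝ, |t| ≤ 1 → (1 - t ^ 2) * |(derivative P).eval t| ≤ (D : ℝ) * (1 - (P.eval t) ^ 2)) ∧
      (derivative P).eval 0 = ∑ i, fourier f {i} := by
  obtain ⟨P, hP1, hP2⟩ := exists_poly n f (D : ℤ) (by
    intro T hT
    exact hdeg T (by exact_mod_cast hT))
  have hder : ∀ t : ℝ, (derivative P).eval t = Ds t f := by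
    intro t
    have h1 := P.hasDerivAt t
    have e : (fun x => eval x P) = fun s => Ex s f := by
      funext s; exact hP2 s
    rw [e] at h1
    exact h1.unique (hasDerivAt_Ex n f t)
  have habs : ∀ x, |f x| ≤ 1 := by
    intro x
    rcases hf x with h | h <;> rw [h] <;> norm_num
  refine ⟨P, ?_, hP2, ?_, ?_, ?_⟩
  · rw [Polynomial.natDegree_le_iff_coeff_eq_zero]
    intro k hk
    exact hP1 k (by exact_mod_cast hk)
  · intro t ht
    rw [hP2]
    exact Ex_abs_le t ht f habs
  · intro t ht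
    have hu : 0 ≤ 1 - t ^ 2 := by
      have := abs_le.mp ht
      nlinarith
    rw [hder, hP2]
    have h1 := Ds_le_En t ht f hf
    have h2 := poincareB t ht n f D hdeg
    rw [Ex_sq_bool t f hf] at h2
    calc (1 - t ^ 2) * |Ds t f| ≤ (1 - t ^ 2) * En t f := mul_le_mul_of_nonneg_left h1 hu
      _ ≤ (D : ℝ) * (1 - (Ex t f) ^ 2) := h2
  · rw [hder, Ds_zero_eq]

end Vale.Agent.P047lib.Biased
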