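import Mathlib

namespace Vale.Agent.P047lib.Envelope

open Polynomial

/-- an elementary inequality used to symmetrise the envelope bound -/
lemma alg (a b A B : ℝ) (ha : |a| ≤ 1) (hb : |b| ≤ 1) (hB : 0 < B) (hAB : B ≤ A)
    (hC : (1 + a) * B * ((1 - b) * B) ≤ (1 + b) * A * ((1 - a) * A)) :
    (a - b) * (A + B) ≤ 2 * (A - B) := by
  obtain ⟨ha1, ha2⟩ := abs_le.mp ha
  obtain ⟨hb1, hb2⟩ := abs_le.mp hb
  obtain ⟨X, hX⟩ : ∃ X : ℝ, X = (1 + a) * (1 - b) := ⟨_, rfl⟩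
  obtain ⟨Y, hY⟩ : ∃ Y : ℝ, Y = (1 + b) * (1 - a) := ⟨_, rfl⟩
  obtain ⟨Z, hZ⟩ : ∃ Z : ℝ, Z = 2 + 2 * a * b := ⟨_, rfl⟩
  have hXnn : 0 ≤ X := by rw [hX]; exact mul_nonneg (by linarith) (by linarith)
  have hYnn : 0 ≤ Y := by rw [hY]; exact mul_nonneg (by linarith) (by linarith)
  have hZnn : 0 ≤ Z := by rw [hZ]; nlinarith
  have hZ2 : 4 * X * Y ≤ Z ^ 2 := by
    rw [hX, hY, hZ]; nlinarith [sq_nonneg (a + b)]
  have hC' : X * B ^ 2 ≤ Y * A ^ 2 := by
    rw [hX, hY]; nlinarith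
  have hgoal : 2 * (2 * (A - B) - (a - b) * (A + B)) = Z * (A - B) + 2 * Y * A - 2 * X * B := by
    rw [hX, hY, hZ]; ring
  have hA : 0 < A := lt_of_lt_of_le hB hAB
  suffices h : 0 ≤ Z * (A - B) + 2 * Y * A - 2 * X * B by linarith
  by_cases hcase : X * B ≤ Y * A
  · have : 0 ≤ Z * (A - B) := mul_nonneg hZnn (by linarith)
    linarith
  · have hcase' : Y * A < X * B := not_le.mp hcase
    have hXY : Y < X := by
      by_contra hcon
      have hcon' : X ≤ Y := not_lt.mp hcon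
      have h1 : X * B ≤ Y * B := mul_le_mul_of_nonneg_right hcon' hB.le
      have h2 : Y * B ≤ Y * A := mul_le_mul_of_nonneg_left hAB hYnn
      linarith
    by_contra hneg
    have hneg' : Z * (A - B) < 2 * (X * B - Y * A) := by linarith [not_le.mp hneg]
    have hW : 0 ≤ Z * (A - B) := mul_nonneg hZnn (by linarith)
    have hsq := mul_self_lt_mul_self hW hneg'
    have h1 : 0 ≤ (X - Y) * (Y * A ^ 2 - X * B ^ 2) := mul_nonneg (by linarith) (by linarith)
    have h2 : 0 ≤ (Z ^ 2 - 4 * X * Y) * (A - B) ^ 2 := mul_nonneg (by linarith) (sq_nonneg _)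
    nlinarith [h1, h2, hsq]

/-- **Envelope bound.** A polynomial with values in `[-1,1)` on `(-1,1)` that satisfies the
differential inequality `(1-t²)|P'(t)| ≤ D(1-P(t)²)` obeys
`(P(x) - P(-x))/2 ≤ ((1+x)^D - (1-x)^D)/((1+x)^D + (1-x)^D)` for `0 ≤ x < 1`. -/
theorem envelope (P : ℝ[X]) (D : ℕ)
    (hb : ∀ t : ℝ, |t| ≤ 1 → |P.eval t| ≤ 1)
    (hlt : ∀ t : ℝ, |t| < 1 → P.eval t < 1)
    (hode : ∀ t : ℝ, |t| ≤ 1 →
      (1 - t ^ 2) * |(derivative P).eval t| ≤ (D : ℝ) * (1 - (P.eval t) ^ 2))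
    (x : ℝ) (hx0 : 0 ≤ x) (hx1 : x < 1) :
    (P.eval x - P.eval (-x)) * ((1 + x) ^ D + (1 - x) ^ D) ≤ 2 * ((1 + x) ^ D - (1 - x) ^ D) := by
  obtain ⟨q, hq⟩ : ∃ q : ℝ → ℝ,
      q = fun t => ((1 + P.eval t) * (1 - t) ^ D) / ((1 - P.eval t) * (1 + t) ^ D) := ⟨_, rfl⟩
  have hMpos : ∀ t : ℝ, t ∈ Set.Ioo (-1 : ℝ) 1 → 0 < (1 - P.eval t) * (1 + t) ^ D := by
    intro t ht
    have h1 := hlt t (abs_lt.mpr ⟨ht.1, ht.2⟩)
    have h2 : 0 < 1 + t := by linarith [ht.1]
    exact mul_pos (by linarith) (pow_pos h2 D)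
  -- derivative of q
  have hderiv : ∀ t : ℝ, t ∈ Set.Ioo (-1 : ℝ) 1 → ∃ q' : ℝ, HasDerivAt q q' t ∧ q' ≤ 0 := by
    intro t ht
    have hP := P.hasDerivAt t
    have h1 : HasDerivAt (fun s => 1 + P.eval s) ((derivative P).eval t) t := hP.const_add 1
    have h2 : HasDerivAt (fun s : ℝ => (1 - s) ^ D) ((D : ℝ) * (1 - t) ^ (D - 1) * (-1)) t := by
      have := ((hasDerivAt_id t).const_sub 1).fun_pow D
      simpa using this
    have h3 : HasDerivAt (fun s => 1 - P.eval s) (-(derivative P).eval t) t := hP.const_sub 1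
    have h4 : HasDerivAt (fun s : ℝ => (1 + s) ^ D) ((D : ℝ) * (1 + t) ^ (D - 1) * 1) t := by
      have := ((hasDerivAt_id t).const_add 1).fun_pow D
      simpa using this
    have hN := h1.fun_mul h2
    have hM := h3.fun_mul h4
    have hQ := hN.fun_div hM (ne_of_gt (hMpos t ht))
    refine ⟨_, by rw [hq]; exact hQ, ?_⟩
    apply div_nonpos_of_nonpos_of_nonneg _ (sq_nonneg _)
    have habs : |t| ≤ 1 := abs_le.mpr ⟨ht.1.le, ht.2.le⟩
    have ho := hode t habs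
    have hu : 0 < 1 - t ^ 2 := by nlinarith [ht.1, ht.2]
    have hp1 : (derivative P).eval t ≤ |(derivative P).eval t| := le_abs_self _
    rcases Nat.eq_zero_or_pos D with hD0 | hDpos
    · subst hD0
      simp only [Nat.cast_zero, zero_mul] at ho
      have hz : |(derivative P).eval t| ≤ 0 := by
        by_contra hcon
        have : 0 < |(derivative P).eval t| := not_le.mp hcon
        nlinarith
      have hz' : (derivative P).eval t = 0 := abs_eq_zero.mp (le_antisymm hz (abs_nonneg _))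
      simp [hz']
    · obtain ⟨k, rfl⟩ : ∃ k, D = k + 1 := ⟨D - 1, by omega⟩
      have e : k + 1 - 1 = k := by omega
      rw [e]
      have h1t : 0 ≤ 1 - t := by linarith [ht.2]
      have h2t : 0 ≤ 1 + t := by linarith [ht.1]
      have hfac : 0 ≤ (1 - t) ^ k * (1 + t) ^ k := mul_nonneg (pow_nonneg h1t k) (pow_nonneg h2t k)
      have key : ((derivative P).eval t * (1 - t) ^ (k + 1)
            + (1 + P.eval t) * (((k + 1 : ℕ) : ℝ) * (1 - t) ^ k * (-1))) * ((1 - P.eval t) * (1 + t) ^ (k + 1))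
          - (1 + P.eval t) * (1 - t) ^ (k + 1) * (-(derivative P).eval t * (1 + t) ^ (k + 1)
            + (1 - P.eval t) * (((k + 1 : ℕ) : ℝ) * (1 + t) ^ k * 1))
          = (1 - t) ^ k * (1 + t) ^ k * (2 * ((1 - t ^ 2) * (derivative P).eval t)
              - 2 * (((k + 1 : ℕ) : ℝ) * (1 - (P.eval t) ^ 2))) := by
        rw [pow_succ, pow_succ]
        ring
      rw [key]
      apply mul_nonpos_of_nonneg_of_nonpos hfac
      have := mul_le_mul_of_nonneg_left hp1 hu.le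
      linarith
  have hanti : AntitoneOn q (Set.Ioo (-1 : ℝ) 1) := by
    apply antitoneOn_of_deriv_nonpos (convex_Ioo (-1 : ℝ) 1)
    · intro t ht
      obtain ⟨q', hq', _⟩ := hderiv t ht
      exact hq'.continuousAt.continuousWithinAt
    · intro t ht
      rw [interior_Ioo] at ht
      obtain ⟨q', hq', _⟩ := hderiv t ht
      exact hq'.differentiableAt.differentiableWithinAt
    · intro t ht
      rw [interior_Ioo] at ht
      obtain ⟨q', hq', hle⟩ := hderiv t ht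
      rw [hq'.deriv]
      exact hle
  have hxm : x ∈ Set.Ioo (-1 : ℝ) 1 := ⟨by linarith, hx1⟩
  have hnxm : -x ∈ Set.Ioo (-1 : ℝ) 1 := ⟨by linarith, by linarith⟩
  have hle := hanti hnxm hxm (by linarith)
  rw [hq] at hle
  simp only [sub_neg_eq_add] at hle
  have hM1 := hMpos x hxm
  have hM2 := hMpos (-x) hnxm
  have e2 : (1 : ℝ) + -x = 1 - x := by ring
  rw [e2] at hle hM2
  rw [div_le_div_iff₀ hM1 hM2] at hle
  have hA : 0 < (1 + x) ^ D := pow_pos (by linarith) D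
  have hB : 0 < (1 - x) ^ D := pow_pos (by linarith) D
  have hAB : (1 - x) ^ D ≤ (1 + x) ^ D := pow_le_pow_left₀ (by linarith) (by linarith) D
  have hax := hb x (abs_le.mpr ⟨by linarith, hx1.le⟩)
  have hbx := hb (-x) (abs_le.mpr ⟨by linarith, by linarith⟩)
  exact alg (P.eval x) (P.eval (-x)) ((1 + x) ^ D) ((1 - x) ^ D) hax hbx hB hAB (by linarith)

end Vale.Agent.P047lib.Envelope
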