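import Mathlib
import Vale.Agent.P047lib.TopMinusTwo

namespace Vale.Agent.P047lib.Udnf

open Finset
open Vale.Agent.Results.P047.DegTopMinusTwo

/-- `x` lies in the subcube described by the pattern `c`: every coordinate `i` with
`c i = some b` is fixed to the bit `b`, and the coordinates with `c i = none` are free. -/
def InCube {n : ℕ} (c : Fin n → Option Bool) (x : Fin n → Bool) : Prop :=
  ∀ i b, c i = some b → x i = b

/-- the fraction of points of the cube at which `f` takes the value `-1` -/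
noncomputable def negFrac {n : ℕ} (f : (Fin n → Bool) → ℝ) : ℝ :=
  ((univ.filter (fun x : Fin n → Bool => f x = -1)).card : ℝ) / 2 ^ n

/-- local factor of a sum over a subcube -/
noncomputable def loc (o : Option Bool) (φ : Bool → ℝ) : ℝ :=
  match o with
  | none => φ false + φ true
  | some b => φ b

/-- the sign fixed by an entry of a pattern (`0` for a free coordinate) -/
noncomputable def sig (o : Option Bool) : ℝ :=
  match o with
  | none => 0
  | some b => sg b

/-- `1/2` for a fixed coordinate and `1` for a free one -/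
noncomputable def hw (o : Option Bool) : ℝ :=
  match o with
  | none => 1
  | some _ => 1 / 2

/-- `1` for a fixed coordinate and `0` for a free one -/
noncomputable def fx (o : Option Bool) : ℝ :=
  match o with
  | none => 0
  | some _ => 1

/-- the uniform measure `2^{-codim}` of the subcube -/
noncomputable def mass {n : ℕ} (c : Fin n → Option Bool) : ℝ := ∏ i, hw (c i)

lemma loc_eq (o : Option Bool) (φ : Bool → ℝ) :
    loc o φ = ∑ b : Bool, if (∀ b', o = some b' → b = b') then φ b else 0 := by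
  cases o with
  | none => simp [loc, add_comm]
  | some b0 => cases b0 <;> simp [loc]

open Classical in
lemma cube_sum {n : ℕ} (c : Fin n → Option Bool) (φ : Fin n → Bool → ℝ) :
    ∑ x : Fin n → Bool, (if InCube c x then ∏ i, φ i (x i) else 0) = ∏ i, loc (c i) (φ i) := by
  simp only [loc_eq]
  rw [Finset.prod_univ_sum, Fintype.piFinset_univ]
  apply Finset.sum_congr rfl
  intro x _
  rw [Fintype.prod_ite_zero]
  by_cases hx : InCube c x
  · rw [if_pos hx, if_pos (fun i b' h => hx i b' h)]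
  · rw [if_neg hx, if_neg (fun h => hx (fun i b hb => h i b hb))]

lemma inCube_none {n : ℕ} (x : Fin n → Bool) : InCube (fun _ => none) x := by
  intro i b h
  simp at h

lemma hw_pos (o : Option Bool) : 0 < hw o := by
  cases o <;> simp [hw]

lemma mass_pos {n : ℕ} (c : Fin n → Option Bool) : 0 < mass c :=
  Finset.prod_pos (fun i _ => hw_pos (c i))

open Classical in
lemma cube_mass {n : ℕ} (c : Fin n → Option Bool) :
    ∑ x : Fin n → Bool, (if InCube c x then (1 / 2 : ℝ) ^ n else 0) = mass c := by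
  have h := cube_sum c (fun _ _ => (1 / 2 : ℝ))
  have e2 : ∀ i, loc (c i) (fun _ => (1 / 2 : ℝ)) = hw (c i) := by
    intro i
    cases c i <;> simp [loc, hw] <;> norm_num
  simp only [e2] at h
  unfold mass
  rw [← h]
  apply Finset.sum_congr rfl
  intro x _
  simp

open Classical in
lemma cube_first {n : ℕ} (c : Fin n → Option Bool) (j : Fin n) :
    ∑ x : Fin n → Bool, (if InCube c x then (1 / 2 : ℝ) ^ n * sg (x j) else 0)
      = mass c * sig (c j) := by
  have h := cube_sum c (fun i b => (1 / 2 : ℝ) * (if i = j then sg b else 1))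
  have e2 : ∀ i, loc (c i) (fun b => (1 / 2 : ℝ) * (if i = j then sg b else 1))
      = hw (c i) * (if i = j then sig (c i) else 1) := by
    intro i
    by_cases hij : i = j
    · cases c i <;> simp [loc, hw, sig, hij, sg]
    · cases c i <;> simp [loc, hw, sig, hij] <;> norm_num
  simp only [e2] at h
  rw [Finset.prod_mul_distrib, Finset.prod_ite_eq' univ j (fun i => sig (c i))] at h
  simp only [Finset.mem_univ, if_true] at h
  unfold mass
  rw [← h]
  apply Finset.sum_congr rfl
  intro x _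
  congr 1
  rw [Finset.prod_mul_distrib, Finset.prod_ite_eq' univ j (fun i => sg (x i))]
  simp

/-- the tilted product weight -/
noncomputable def tw {n : ℕ} (t : Fin n → ℝ) (x : Fin n → Bool) : ℝ :=
  ∏ i, (Real.exp (-(t i * sg (x i))) / (2 * Real.cosh (t i)))

lemma tw_nonneg {n : ℕ} (t : Fin n → ℝ) (x : Fin n → Bool) : 0 ≤ tw t x := by
  unfold tw
  apply Finset.prod_nonneg
  intro i _
  have := Real.cosh_pos (t i)
  positivity

lemma loc_tilt_none (t : ℝ) :
    loc none (fun b => Real.exp (-(t * sg b)) / (2 * Real.cosh t)) = 1 := by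
  have hc := Real.cosh_pos t
  simp only [loc, sg_true, sg_false]
  rw [← add_div, Real.cosh_eq]
  have : Real.exp (-(t * 1)) + Real.exp (-(t * -1)) = 2 * ((Real.exp t + Real.exp (-t)) / 2) := by
    have e1 : -(t * 1) = -t := by ring
    have e2 : -(t * -1) = t := by ring
    rw [e1, e2]; ring
  rw [this]
  have hpos : 0 < 2 * ((Real.exp t + Real.exp (-t)) / 2) := by
    rw [← Real.cosh_eq]; positivity
  exact div_self hpos.ne'

open Classical in
lemma tw_total {n : ℕ} (t : Fin n → ℝ) : ∑ x : Fin n → Bool, tw t x = 1 := by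
  have h := cube_sum (fun _ : Fin n => (none : Option Bool))
    (fun i b => Real.exp (-(t i * sg b)) / (2 * Real.cosh (t i)))
  simp only [loc_tilt_none, Finset.prod_const_one] at h
  rw [← h]
  apply Finset.sum_congr rfl
  intro x _
  rw [if_pos (inCube_none x)]
  rfl

open Classical in
lemma cube_tilt_lower {n : ℕ} (c : Fin n → Option Bool) (t : Fin n → ℝ) :
    mass c * Real.exp (∑ i, (-(t i * sig (c i)) - fx (c i) * (t i ^ 2 / 2)))
      ≤ ∑ x : Fin n → Bool, (if InCube c x then tw t x else 0) := by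
  have h := cube_sum c (fun i b => Real.exp (-(t i * sg b)) / (2 * Real.cosh (t i)))
  have e : ∀ x : Fin n → Bool, (if InCube c x then tw t x else 0)
      = (if InCube c x then ∏ i, (Real.exp (-(t i * sg (x i))) / (2 * Real.cosh (t i))) else 0) :=
    fun x => rfl
  simp only [e]
  rw [h, Real.exp_sum]
  unfold mass
  rw [← Finset.prod_mul_distrib]
  apply Finset.prod_le_prod
  · intro i _
    exact mul_nonneg (hw_pos (c i)).le (Real.exp_pos _).le
  · intro i _
    cases hci : c i with
    | none =>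
      rw [loc_tilt_none]
      simp [hw, sig, fx]
    | some b =>
      simp only [loc, hw, sig, fx]
      have hc := Real.cosh_pos (t i)
      have hle := Real.cosh_le_exp_half_sq (t i)
      rw [one_mul, Real.exp_sub, le_div_iff₀ (by positivity)]
      have h1 : 1 / 2 * (Real.exp (-(t i * sg b)) / Real.exp (t i ^ 2 / 2)) * (2 * Real.cosh (t i))
          = Real.exp (-(t i * sg b)) * (Real.cosh (t i) / Real.exp (t i ^ 2 / 2)) := by
        field_simp
      rw [h1]
      have h2 : Real.cosh (t i) / Real.exp (t i ^ 2 / 2) ≤ 1 := by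
        rw [div_le_one (Real.exp_pos _)]
        exact hle
      calc Real.exp (-(t i * sg b)) * (Real.cosh (t i) / Real.exp (t i ^ 2 / 2))
          ≤ Real.exp (-(t i * sg b)) * 1 := by
            apply mul_le_mul_of_nonneg_left h2 (Real.exp_pos _).le
        _ = Real.exp (-(t i * sg b)) := mul_one _

open Classical in
lemma ind_sum {n : ℕ} (f : (Fin n → Bool) → ℝ) (F : Finset (Fin n → Option Bool))
    (hcover : ∀ x, f x = -1 ↔ ∃ c ∈ F, InCube c x)
    (hunamb : ∀ x, ∀ c ∈ F, ∀ c' ∈ F, InCube c x → InCube c' x → c = c') (x : Fin n → Bool) :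
    ∑ c ∈ F, (if InCube c x then (1 : ℝ) else 0) = if f x = -1 then 1 else 0 := by
  by_cases h : f x = -1
  · obtain ⟨c0, hc0, hin⟩ := (hcover x).1 h
    rw [if_pos h, Finset.sum_eq_single_of_mem c0 hc0]
    · rw [if_pos hin]
    · intro c hc hne
      rw [if_neg]
      intro hcx
      exact hne (hunamb x c hc c0 hc0 hcx hin)
  · rw [if_neg h]
    apply Finset.sum_eq_zero
    intro c hc
    rw [if_neg]
    intro hcx
    exact h ((hcover x).2 ⟨c, hc, hcx⟩)

open Classical in
lemma swap {n : ℕ} (f : (Fin n → Bool) → ℝ) (F : Finset (Fin n → Option Bool))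
    (hcover : ∀ x, f x = -1 ↔ ∃ c ∈ F, InCube c x)
    (hunamb : ∀ x, ∀ c ∈ F, ∀ c' ∈ F, InCube c x → InCube c' x → c = c')
    (ψ : (Fin n → Bool) → ℝ) :
    ∑ c ∈ F, ∑ x : Fin n → Bool, (if InCube c x then ψ x else 0)
      = ∑ x : Fin n → Bool, (if f x = -1 then ψ x else 0) := by
  rw [Finset.sum_comm]
  apply Finset.sum_congr rfl
  intro x _
  have h1 := ind_sum f F hcover hunamb x
  have h2 : ∑ c ∈ F, (if InCube c x then ψ x else 0)
      = (∑ c ∈ F, (if InCube c x then (1 : ℝ) else 0)) * ψ x := by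
    rw [Finset.sum_mul]
    apply Finset.sum_congr rfl
    intro c _
    by_cases hc : InCube c x
    · rw [if_pos hc, if_pos hc, one_mul]
    · rw [if_neg hc, if_neg hc, zero_mul]
  rw [h2, h1]
  by_cases h : f x = -1
  · rw [if_pos h, if_pos h, one_mul]
  · rw [if_neg h, if_neg h, zero_mul]

open Classical in
lemma lin {n : ℕ} (f : (Fin n → Bool) → ℝ) (hf : ∀ x, f x = 1 ∨ f x = -1)
    (ψ : (Fin n → Bool) → ℝ) :
    ∑ x : Fin n → Bool, f x * ψ x
      = ∑ x : Fin n → Bool, ψ x - 2 * ∑ x : Fin n → Bool, (if f x = -1 then ψ x else 0) := by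
  rw [Finset.mul_sum, ← Finset.sum_sub_distrib]
  apply Finset.sum_congr rfl
  intro x _
  rcases hf x with h | h
  · rw [h, if_neg (by norm_num)]; ring
  · rw [h, if_pos rfl]; ring

open Classical in
lemma fourier_single {n : ℕ} (f : (Fin n → Bool) → ℝ) (hf : ∀ x, f x = 1 ∨ f x = -1)
    (F : Finset (Fin n → Option Bool))
    (hcover : ∀ x, f x = -1 ↔ ∃ c ∈ F, InCube c x)
    (hunamb : ∀ x, ∀ c ∈ F, ∀ c' ∈ F, InCube c x → InCube c' x → c = c') (j : Fin n) :
    fourier f {j} = -2 * ∑ c ∈ F, mass c * sig (c j) := by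
  have h0 : fourier f {j} = ∑ x : Fin n → Bool, f x * ((1 / 2 : ℝ) ^ n * sg (x j)) := by
    unfold Vale.Agent.Results.P047.DegTopMinusTwo.fourier chi
    rw [Finset.sum_div]
    apply Finset.sum_congr rfl
    intro x _
    rw [Finset.prod_singleton, one_div_pow]
    ring
  rw [h0, lin f hf, ← swap f F hcover hunamb]
  have hz : ∑ x : Fin n → Bool, (1 / 2 : ℝ) ^ n * sg (x j) = 0 := by
    have h := cube_first (fun _ : Fin n => (none : Option Bool)) j
    simp only [sig, mul_zero] at h
    rw [← h]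
    apply Finset.sum_congr rfl
    intro x _
    rw [if_pos (inCube_none x)]
  rw [hz]
  have hc : ∀ c ∈ F, ∑ x : Fin n → Bool, (if InCube c x then (1 / 2 : ℝ) ^ n * sg (x j) else 0)
      = mass c * sig (c j) := fun c _ => cube_first c j
  rw [Finset.sum_congr rfl hc]
  ring

lemma sum_eps {n : ℕ} (f : (Fin n → Bool) → ℝ) (hf : ∀ x, f x = 1 ∨ f x = -1)
    (F : Finset (Fin n → Option Bool))
    (hcover : ∀ x, f x = -1 ↔ ∃ c ∈ F, InCube c x)
    (hunamb : ∀ x, ∀ c ∈ F, ∀ c' ∈ F, InCube c x → InCube c' x → c = c') (ε : Fin n → ℝ) :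
    ∑ i, ε i * fourier f {i} = 2 * ∑ c ∈ F, mass c * (-∑ i, ε i * sig (c i)) := by
  calc ∑ i, ε i * fourier f {i}
      = ∑ i, ∑ c ∈ F, -2 * (mass c * (ε i * sig (c i))) := by
        apply Finset.sum_congr rfl
        intro i _
        rw [fourier_single f hf F hcover hunamb i, Finset.mul_sum, Finset.mul_sum]
        apply Finset.sum_congr rfl
        intro c _
        ring
    _ = ∑ c ∈ F, ∑ i, -2 * (mass c * (ε i * sig (c i))) := Finset.sum_comm
    _ = 2 * ∑ c ∈ F, mass c * (-∑ i, ε i * sig (c i)) := by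
        rw [Finset.mul_sum]
        apply Finset.sum_congr rfl
        intro c _
        rw [← Finset.mul_sum, ← Finset.mul_sum]
        ring

open Classical in
lemma mass_sum {n : ℕ} (f : (Fin n → Bool) → ℝ) (F : Finset (Fin n → Option Bool))
    (hcover : ∀ x, f x = -1 ↔ ∃ c ∈ F, InCube c x)
    (hunamb : ∀ x, ∀ c ∈ F, ∀ c' ∈ F, InCube c x → InCube c' x → c = c') :
    negFrac f = ∑ c ∈ F, mass c := by
  have hc : ∀ c ∈ F, mass c = ∑ x : Fin n → Bool, (if InCube c x then (1 / 2 : ℝ) ^ n else 0) :=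
    fun c _ => (cube_mass c).symm
  rw [Finset.sum_congr rfl hc, swap f F hcover hunamb (fun _ => (1 / 2 : ℝ) ^ n)]
  unfold negFrac
  rw [Finset.natCast_card_filter, Finset.sum_div]
  apply Finset.sum_congr rfl
  intro x _
  by_cases h : f x = -1
  · rw [if_pos h, if_pos h, one_div_pow]
  · rw [if_neg h, if_neg h, zero_div]

open Classical in
lemma tilt_family {n : ℕ} (f : (Fin n → Bool) → ℝ) (F : Finset (Fin n → Option Bool))
    (hcover : ∀ x, f x = -1 ↔ ∃ c ∈ F, InCube c x)
    (hunamb : ∀ x, ∀ c ∈ F, ∀ c' ∈ F, InCube c x → InCube c' x → c = c')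
    (ε : Fin n → ℝ) (hε : ∀ i, ε i ^ 2 = 1) (s : ℝ) :
    ∑ c ∈ F, mass c * Real.exp (s * (-∑ i, ε i * sig (c i)) - s ^ 2 * (∑ i, fx (c i)) / 2)
      ≤ 1 := by
  have h1 : ∀ c ∈ F, mass c * Real.exp (s * (-∑ i, ε i * sig (c i)) - s ^ 2 * (∑ i, fx (c i)) / 2)
      ≤ ∑ x : Fin n → Bool, (if InCube c x then tw (fun i => s * ε i) x else 0) := by
    intro c _
    have h := cube_tilt_lower c (fun i => s * ε i)
    have e : ∑ i, (-(s * ε i * sig (c i)) - fx (c i) * ((s * ε i) ^ 2 / 2))
        = s * (-∑ i, ε i * sig (c i)) - s ^ 2 * (∑ i, fx (c i)) / 2 := by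
      rw [Finset.sum_sub_distrib, mul_neg, Finset.mul_sum, Finset.mul_sum, ← Finset.sum_neg_distrib,
        Finset.sum_div]
      congr 1
      · apply Finset.sum_congr rfl
        intro i _
        ring
      · apply Finset.sum_congr rfl
        intro i _
        rw [mul_pow, hε i]
        ring
    rw [e] at h
    exact h
  calc ∑ c ∈ F, mass c * Real.exp (s * (-∑ i, ε i * sig (c i)) - s ^ 2 * (∑ i, fx (c i)) / 2)
      ≤ ∑ c ∈ F, ∑ x : Fin n → Bool, (if InCube c x then tw (fun i => s * ε i) x else 0) :=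
        Finset.sum_le_sum h1
    _ = ∑ x : Fin n → Bool, (if f x = -1 then tw (fun i => s * ε i) x else 0) :=
        swap f F hcover hunamb _
    _ ≤ ∑ x : Fin n → Bool, tw (fun i => s * ε i) x := by
        apply Finset.sum_le_sum
        intro x _
        by_cases h : f x = -1
        · rw [if_pos h]
        · rw [if_neg h]; exact tw_nonneg _ x
    _ = 1 := tw_total _

open Classical in
lemma ksum_eq {n : ℕ} (c : Fin n → Option Bool) :
    ∑ i, fx (c i) = ((univ.filter (fun i => c i ≠ none)).card : ℝ) := by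
  rw [Finset.natCast_card_filter]
  apply Finset.sum_congr rfl
  intro i _
  cases c i <;> simp [fx]

lemma analytic_key {ι : Type*} (F : Finset ι) (m D k : ι → ℝ) (d : ℝ)
    (hm : ∀ c ∈ F, 0 < m c) (hk : ∀ c ∈ F, k c ≤ d)
    (h : ∀ s : ℝ, ∑ c ∈ F, m c * Real.exp (s * D c - s ^ 2 * k c / 2) ≤ 1)
    (μ A : ℝ) (hμ : μ = ∑ c ∈ F, m c) (hA : A = ∑ c ∈ F, m c * D c) (hμpos : 0 < μ) (s : ℝ) :
    s * A / μ - s ^ 2 * d / 2 ≤ Real.log (1 / μ) := by
  have hμne : μ ≠ 0 := hμpos.ne'
  have h2 : μ * Real.exp (s * A / μ - s ^ 2 * d / 2)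
      = ∑ c ∈ F, m c * (Real.exp (s * A / μ - s ^ 2 * d / 2)
          * (1 + (s * D c - s ^ 2 * d / 2) - (s * A / μ - s ^ 2 * d / 2))) := by
    have e : ∑ c ∈ F, m c * (Real.exp (s * A / μ - s ^ 2 * d / 2)
          * (1 + (s * D c - s ^ 2 * d / 2) - (s * A / μ - s ^ 2 * d / 2)))
        = Real.exp (s * A / μ - s ^ 2 * d / 2) * ((1 - s * A / μ) * μ + s * A) := by
      rw [hμ, hA, Finset.mul_sum, Finset.mul_sum, ← Finset.sum_add_distrib, Finset.mul_sum]
      apply Finset.sum_congr rfl
      intro c _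
      ring
    rw [e]
    field_simp
    ring
  have h1 : μ * Real.exp (s * A / μ - s ^ 2 * d / 2)
      ≤ ∑ c ∈ F, m c * Real.exp (s * D c - s ^ 2 * k c / 2) := by
    rw [h2]
    apply Finset.sum_le_sum
    intro c hc
    apply mul_le_mul_of_nonneg_left _ (hm c hc).le
    have e1 := Real.add_one_le_exp ((s * D c - s ^ 2 * d / 2) - (s * A / μ - s ^ 2 * d / 2))
    have e2 : Real.exp (s * D c - s ^ 2 * d / 2) = Real.exp (s * A / μ - s ^ 2 * d / 2)
        * Real.exp ((s * D c - s ^ 2 * d / 2) - (s * A / μ - s ^ 2 * d / 2)) := by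
      rw [← Real.exp_add]
      congr 1
      ring
    have e3 : Real.exp (s * D c - s ^ 2 * d / 2) ≤ Real.exp (s * D c - s ^ 2 * k c / 2) := by
      apply Real.exp_le_exp.mpr
      have hkc := hk c hc
      nlinarith [sq_nonneg s]
    calc Real.exp (s * A / μ - s ^ 2 * d / 2)
          * (1 + (s * D c - s ^ 2 * d / 2) - (s * A / μ - s ^ 2 * d / 2))
        ≤ Real.exp (s * A / μ - s ^ 2 * d / 2)
          * Real.exp ((s * D c - s ^ 2 * d / 2) - (s * A / μ - s ^ 2 * d / 2)) := by
          apply mul_le_mul_of_nonneg_left _ (Real.exp_pos _).le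
          linarith
      _ = Real.exp (s * D c - s ^ 2 * d / 2) := e2.symm
      _ ≤ Real.exp (s * D c - s ^ 2 * k c / 2) := e3
  have h3 : Real.exp (s * A / μ - s ^ 2 * d / 2) ≤ 1 / μ := by
    rw [le_div_iff₀ hμpos]
    have := h s
    linarith [mul_comm μ (Real.exp (s * A / μ - s ^ 2 * d / 2))]
  rw [Real.le_log_iff_exp_le (by positivity)]
  exact h3

lemma analytic_final (μ A d : ℝ) (hd : 1 ≤ d) (hμ : 0 < μ)
    (key : ∀ s : ℝ, s * A / μ - s ^ 2 * d / 2 ≤ Real.log (1 / μ)) :
    2 * A ≤ 2 * μ * Real.sqrt (2 * d * Real.log (1 / μ))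
      ∧ 2 * A ≤ 2 * Real.exp (-(1 / 2)) * Real.sqrt d := by
  have hμne : μ ≠ 0 := hμ.ne'
  have hd0 : 0 < d := by linarith
  have hL0 : 0 ≤ Real.log (1 / μ) := by
    have := key 0
    simpa using this
  have h1 := key (A / (μ * d))
  have h2 : A ^ 2 ≤ 2 * μ ^ 2 * d * Real.log (1 / μ) := by
    have e : A / (μ * d) * A / μ - (A / (μ * d)) ^ 2 * d / 2 = A ^ 2 / (2 * μ ^ 2 * d) := by
      field_simp
      ring
    rw [e, div_le_iff₀ (by positivity)] at h1
    linarith
  constructor
  · have h3 : (A / μ) ^ 2 ≤ (Real.sqrt (2 * d * Real.log (1 / μ))) ^ 2 := by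
      rw [Real.sq_sqrt (by positivity), div_pow, div_le_iff₀ (by positivity)]
      linarith
    have h4 : A / μ ≤ Real.sqrt (2 * d * Real.log (1 / μ)) :=
      (abs_le_of_sq_le_sq' h3 (Real.sqrt_nonneg _)).2
    calc 2 * A = 2 * μ * (A / μ) := by field_simp
      _ ≤ 2 * μ * Real.sqrt (2 * d * Real.log (1 / μ)) := by
          apply mul_le_mul_of_nonneg_left h4
          positivity
  · have h5 : 2 * μ ^ 2 * Real.log (1 / μ) ≤ Real.exp (-1) := by
      have hlog : Real.log (1 / μ) = - Real.log μ := by rw [one_div, Real.log_inv]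
      have hμ2 : μ ^ 2 = Real.exp (2 * Real.log μ) := by
        rw [two_mul, Real.exp_add, Real.exp_log hμ]
        ring
      have e1 := Real.add_one_le_exp (-2 * Real.log μ - 1)
      have e2 : Real.exp (2 * Real.log μ) * Real.exp (-2 * Real.log μ - 1) = Real.exp (-1) := by
        rw [← Real.exp_add]
        congr 1
        ring
      have e3 : 0 < Real.exp (2 * Real.log μ) := Real.exp_pos _
      rw [hlog, hμ2, ← e2]
      have e4 : 2 * Real.exp (2 * Real.log μ) * -Real.log μ
          = Real.exp (2 * Real.log μ) * (-2 * Real.log μ - 1 + 1) := by ring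
      rw [e4]
      exact mul_le_mul_of_nonneg_left e1 e3.le
    have hexp : Real.exp (-(1 / 2)) ^ 2 = Real.exp (-1) := by
      rw [sq, ← Real.exp_add]
      norm_num
    have h6 : A ^ 2 ≤ (Real.exp (-(1 / 2)) * Real.sqrt d) ^ 2 := by
      rw [mul_pow, Real.sq_sqrt hd0.le, hexp]
      have : 2 * μ ^ 2 * d * Real.log (1 / μ) = d * (2 * μ ^ 2 * Real.log (1 / μ)) := by ring
      rw [this] at h2
      have := mul_le_mul_of_nonneg_left h5 hd0.le
      linarith
    have h7 : A ≤ Real.exp (-(1 / 2)) * Real.sqrt d :=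
      (abs_le_of_sq_le_sq' h6 (by positivity)).2
    linarith

/-- The level-one bound for unambiguous DNFs (disjoint unions of subcubes). -/
theorem main {n d : ℕ} (hd : 1 ≤ d) (f : (Fin n → Bool) → ℝ) (hf : ∀ x, f x = 1 ∨ f x = -1)
    (F : Finset (Fin n → Option Bool))
    (hcodim : ∀ c ∈ F, (univ.filter (fun i => c i ≠ none)).card ≤ d)
    (hcover : ∀ x, f x = -1 ↔ ∃ c ∈ F, InCube c x)
    (hunamb : ∀ x, ∀ c ∈ F, ∀ c' ∈ F, InCube c x → InCube c' x → c = c') :
    ∑ i, |fourier f {i}| ≤ 2 * negFrac f * Real.sqrt (2 * d * Real.log (1 / negFrac f))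
      ∧ ∑ i, |fourier f {i}| ≤ 2 * Real.exp (-(1 / 2)) * Real.sqrt d := by
  classical
  obtain ⟨ε, hε⟩ : ∃ ε : Fin n → ℝ, ε = fun i => if 0 ≤ fourier f {i} then (1 : ℝ) else -1 :=
    ⟨_, rfl⟩
  have hε2 : ∀ i, ε i ^ 2 = 1 := by
    intro i
    rw [hε]
    by_cases h : 0 ≤ fourier f {i}
    · simp [h]
    · simp [h]
  have hεabs : ∀ i, |fourier f {i}| = ε i * fourier f {i} := by
    intro i
    rw [hε]
    by_cases h : 0 ≤ fourier f {i}
    · simp only [if_pos h]
      rw [abs_of_nonneg h, one_mul]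
    · simp only [if_neg h]
      rw [abs_of_neg (not_le.mp h)]
      ring
  have hW : ∑ i, |fourier f {i}| = 2 * ∑ c ∈ F, mass c * (-∑ i, ε i * sig (c i)) := by
    rw [← sum_eps f hf F hcover hunamb ε]
    exact Finset.sum_congr rfl (fun i _ => hεabs i)
  have hμ := mass_sum f F hcover hunamb
  rw [hW, hμ]
  have hdr : (1 : ℝ) ≤ d := by exact_mod_cast hd
  rcases F.eq_empty_or_nonempty with hF | hF
  · subst hF
    simp only [Finset.sum_empty, mul_zero, zero_mul]
    constructor
    · exact le_refl _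
    · positivity
  · have hμpos : 0 < ∑ c ∈ F, mass c := Finset.sum_pos (fun c _ => mass_pos c) hF
    have hk : ∀ c ∈ F, ∑ i, fx (c i) ≤ (d : ℝ) := by
      intro c hc
      rw [ksum_eq]
      exact_mod_cast hcodim c hc
    have key := analytic_key F mass (fun c => -∑ i, ε i * sig (c i)) (fun c => ∑ i, fx (c i))
      (d : ℝ) (fun c _ => mass_pos c) hk (tilt_family f F hcover hunamb ε hε2)
      (∑ c ∈ F, mass c) (∑ c ∈ F, mass c * (-∑ i, ε i * sig (c i))) rfl rfl hμpos
    exact analytic_final _ _ (d : ℝ) hdr hμpos key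

end Vale.Agent.P047lib.Udnf
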