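import Mathlib
import Vale.Agent.P047lib.TopMinusTwo
import Vale.Agent.P047lib.Udnf

namespace Vale.Agent.P047lib.Partition

open Finset
open Vale.Agent.Results.P047.DegTopMinusTwo
open Vale.Agent.P047lib.Udnf

/-- the codimension of the subcube given by a pattern: the number of fixed coordinates -/
def codim {n : ℕ} (c : Fin n → Option Bool) : ℕ := (univ.filter (fun i => c i ≠ none)).card

/-- a point of the subcube given by a pattern -/
def pt {n : ℕ} (c : Fin n → Option Bool) : Fin n → Bool := fun i => (c i).getD false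

lemma pt_in {n : ℕ} (c : Fin n → Option Bool) : InCube c (pt c) := by
  intro i b h
  simp [pt, h]

lemma cosh_lower (u : ℝ) : 1 + u ^ 2 / 2 ≤ Real.cosh u := by
  have h1 : Real.cosh u = Real.cosh (2 * (u / 2)) := by
    congr 1
    ring
  rw [h1, Real.cosh_two_mul, Real.cosh_sq]
  have h2 : (u / 2) ^ 2 ≤ Real.sinh (u / 2) ^ 2 := by
    rcases le_total 0 (u / 2) with h | h
    · have := Real.self_le_sinh_iff.mpr h
      nlinarith
    · have := Real.sinh_le_self_iff.mpr h
      nlinarith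
  nlinarith

open Classical in
lemma mass_eq {n : ℕ} (c : Fin n → Option Bool) : mass c = (1 / 2 : ℝ) ^ codim c := by
  unfold mass codim
  have h : ∀ i, hw (c i) = if c i ≠ none then (1 / 2 : ℝ) else 1 := by
    intro i
    cases c i <;> simp [hw]
  simp only [h]
  rw [Finset.prod_ite, Finset.prod_const, Finset.prod_const_one, mul_one]

lemma ksum_codim {n : ℕ} (c : Fin n → Option Bool) : ∑ i, fx (c i) = (codim c : ℝ) := by
  rw [ksum_eq]
  rfl

section part

variable {n : ℕ} (f : (Fin n → Bool) → ℝ) (F : Finset (Fin n → Option Bool))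
  (hcover : ∀ x, ∃ c ∈ F, InCube c x)
  (hunamb : ∀ x, ∀ c ∈ F, ∀ c' ∈ F, InCube c x → InCube c' x → c = c')
  (hconst : ∀ c ∈ F, ∀ x y, InCube c x → InCube c y → f x = f y)

include hcover in
lemma cover0 : ∀ x : Fin n → Bool, (fun _ : Fin n → Bool => (-1 : ℝ)) x = -1 ↔ ∃ c ∈ F, InCube c x :=
  fun x => ⟨fun _ => hcover x, fun _ => rfl⟩

include hcover hunamb in
lemma part_mass : ∑ c ∈ F, mass c = 1 := by
  rw [← mass_sum (fun _ : Fin n → Bool => (-1 : ℝ)) F (cover0 F hcover) hunamb]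
  unfold negFrac
  simp

include hcover hunamb hconst in
open Classical in
lemma part_lin (ψ : (Fin n → Bool) → ℝ) :
    ∑ x : Fin n → Bool, f x * ψ x
      = ∑ c ∈ F, f (pt c) * ∑ x : Fin n → Bool, (if InCube c x then ψ x else 0) := by
  have h1 : ∀ c ∈ F, f (pt c) * ∑ x : Fin n → Bool, (if InCube c x then ψ x else 0)
      = ∑ x : Fin n → Bool, (if InCube c x then f x * ψ x else 0) := by
    intro c hc
    rw [Finset.mul_sum]
    apply Finset.sum_congr rfl
    intro x _
    by_cases hx : InCube c x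
    · rw [if_pos hx, if_pos hx, hconst c hc (pt c) x (pt_in c) hx]
    · rw [if_neg hx, if_neg hx, mul_zero]
  rw [Finset.sum_congr rfl h1,
    swap (fun _ : Fin n → Bool => (-1 : ℝ)) F (cover0 F hcover) hunamb (fun x => f x * ψ x)]
  apply Finset.sum_congr rfl
  intro x _
  rw [if_pos rfl]

include hcover hunamb hconst in
lemma part_fourier (j : Fin n) :
    fourier f {j} = ∑ c ∈ F, f (pt c) * (mass c * sig (c j)) := by
  have h0 : fourier f {j} = ∑ x : Fin n → Bool, f x * ((1 / 2 : ℝ) ^ n * sg (x j)) := by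
    unfold Vale.Agent.Results.P047.DegTopMinusTwo.fourier chi
    rw [Finset.sum_div]
    apply Finset.sum_congr rfl
    intro x _
    rw [Finset.prod_singleton, one_div_pow]
    ring
  rw [h0, part_lin f F hcover hunamb hconst]
  apply Finset.sum_congr rfl
  intro c _
  rw [cube_first]

include hcover hunamb in
lemma part_second (ε : Fin n → ℝ) (hε : ∀ i, ε i ^ 2 = 1) :
    ∑ c ∈ F, mass c * (∑ i, ε i * sig (c i)) ^ 2 ≤ ∑ c ∈ F, mass c * ∑ i, fx (c i) := by
  have key := tilt_family (fun _ : Fin n → Bool => (-1 : ℝ)) F (cover0 F hcover) hunamb ε hε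
  have hm1 := part_mass F hcover hunamb
  have hfx : ∀ c : Fin n → Option Bool, 0 ≤ ∑ i, fx (c i) := by
    intro c
    apply Finset.sum_nonneg
    intro i _
    cases c i <;> simp [fx]
  -- the inequality for every `s`
  have hs : ∀ s : ℝ, s ^ 2 / 2 * (∑ c ∈ F, mass c * (∑ i, ε i * sig (c i)) ^ 2
        - ∑ c ∈ F, mass c * ∑ i, fx (c i))
      ≤ s ^ 4 / 4 * ∑ c ∈ F, mass c * ((∑ i, ε i * sig (c i)) ^ 2 * ∑ i, fx (c i)) := by
    intro s
    have hc : ∀ c ∈ F, mass c * ((1 + (s * (∑ i, ε i * sig (c i))) ^ 2 / 2)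
          * (1 - s ^ 2 * (∑ i, fx (c i)) / 2))
        ≤ (mass c * Real.exp (s * (-∑ i, ε i * sig (c i)) - s ^ 2 * (∑ i, fx (c i)) / 2)
          + mass c * Real.exp (-s * (-∑ i, ε i * sig (c i)) - (-s) ^ 2 * (∑ i, fx (c i)) / 2)) / 2 := by
      intro c _
      have e1 : Real.exp (s * (-∑ i, ε i * sig (c i)) - s ^ 2 * (∑ i, fx (c i)) / 2)
          = Real.exp (-(s * ∑ i, ε i * sig (c i))) * Real.exp (-(s ^ 2 * (∑ i, fx (c i)) / 2)) := by
        rw [← Real.exp_add]
        congr 1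
        ring
      have e2 : Real.exp (-s * (-∑ i, ε i * sig (c i)) - (-s) ^ 2 * (∑ i, fx (c i)) / 2)
          = Real.exp (s * ∑ i, ε i * sig (c i)) * Real.exp (-(s ^ 2 * (∑ i, fx (c i)) / 2)) := by
        rw [← Real.exp_add]
        congr 1
        ring
      have e3 : (mass c * (Real.exp (-(s * ∑ i, ε i * sig (c i))) * Real.exp (-(s ^ 2 * (∑ i, fx (c i)) / 2)))
          + mass c * (Real.exp (s * ∑ i, ε i * sig (c i)) * Real.exp (-(s ^ 2 * (∑ i, fx (c i)) / 2)))) / 2
          = mass c * (Real.cosh (s * ∑ i, ε i * sig (c i)) * Real.exp (-(s ^ 2 * (∑ i, fx (c i)) / 2))) := by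
        rw [Real.cosh_eq]
        ring
      rw [e1, e2, e3]
      apply mul_le_mul_of_nonneg_left _ (mass_pos c).le
      have c1 := cosh_lower (s * ∑ i, ε i * sig (c i))
      have c2 := Real.add_one_le_exp (-(s ^ 2 * (∑ i, fx (c i)) / 2))
      have c3 : 0 ≤ 1 + (s * ∑ i, ε i * sig (c i)) ^ 2 / 2 := by positivity
      calc (1 + (s * ∑ i, ε i * sig (c i)) ^ 2 / 2) * (1 - s ^ 2 * (∑ i, fx (c i)) / 2)
          ≤ (1 + (s * ∑ i, ε i * sig (c i)) ^ 2 / 2) * Real.exp (-(s ^ 2 * (∑ i, fx (c i)) / 2)) := by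
            apply mul_le_mul_of_nonneg_left _ c3
            linarith
        _ ≤ Real.cosh (s * ∑ i, ε i * sig (c i)) * Real.exp (-(s ^ 2 * (∑ i, fx (c i)) / 2)) := by
            apply mul_le_mul_of_nonneg_right c1 (Real.exp_pos _).le
    have hsum := Finset.sum_le_sum hc
    rw [← Finset.sum_div, Finset.sum_add_distrib] at hsum
    have k1 := key s
    have k2 := key (-s)
    have hexp : ∑ c ∈ F, mass c * ((1 + (s * (∑ i, ε i * sig (c i))) ^ 2 / 2)
          * (1 - s ^ 2 * (∑ i, fx (c i)) / 2))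
        = ∑ c ∈ F, mass c
          + s ^ 2 / 2 * (∑ c ∈ F, mass c * (∑ i, ε i * sig (c i)) ^ 2
            - ∑ c ∈ F, mass c * ∑ i, fx (c i))
          - s ^ 4 / 4 * ∑ c ∈ F, mass c * ((∑ i, ε i * sig (c i)) ^ 2 * ∑ i, fx (c i)) := by
      rw [Finset.mul_sum, ← Finset.sum_sub_distrib, Finset.mul_sum, ← Finset.sum_add_distrib,
        ← Finset.sum_sub_distrib]
      apply Finset.sum_congr rfl
      intro c _
      ring
    rw [hexp, hm1] at hsum
    linarith
  -- conclude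
  by_contra hcon
  push Not at hcon
  obtain ⟨X, hX⟩ : ∃ X : ℝ, X = ∑ c ∈ F, mass c * (∑ i, ε i * sig (c i)) ^ 2
      - ∑ c ∈ F, mass c * ∑ i, fx (c i) := ⟨_, rfl⟩
  obtain ⟨M, hM⟩ : ∃ M : ℝ, M = ∑ c ∈ F, mass c * ((∑ i, ε i * sig (c i)) ^ 2 * ∑ i, fx (c i)) :=
    ⟨_, rfl⟩
  have hXpos : 0 < X := by rw [hX]; linarith
  have hM0 : 0 ≤ M := by
    rw [hM]
    apply Finset.sum_nonneg
    intro c _
    exact mul_nonneg (mass_pos c).le (mul_nonneg (sq_nonneg _) (hfx c))
  have hq : 0 < X / (M + 1) := by positivity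
  have h := hs (Real.sqrt (X / (M + 1)))
  rw [← hX, ← hM] at h
  have e4 : Real.sqrt (X / (M + 1)) ^ 4 = (X / (M + 1)) ^ 2 := by
    have : Real.sqrt (X / (M + 1)) ^ 4 = (Real.sqrt (X / (M + 1)) ^ 2) ^ 2 := by ring
    rw [this, Real.sq_sqrt hq.le]
  rw [Real.sq_sqrt hq.le, e4] at h
  have e5 : X / (M + 1) * (M + 1) = X := by field_simp
  nlinarith [mul_pos hq hq, mul_pos hq hXpos, mul_nonneg hq.le hM0]

end part

/-- The level-one bound for subcube partitions. -/
theorem main {n : ℕ} (f : (Fin n → Bool) → ℝ) (hf : ∀ x, |f x| ≤ 1)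
    (F : Finset (Fin n → Option Bool))
    (hcover : ∀ x, ∃ c ∈ F, InCube c x)
    (hunamb : ∀ x, ∀ c ∈ F, ∀ c' ∈ F, InCube c x → InCube c' x → c = c')
    (hconst : ∀ c ∈ F, ∀ x y, InCube c x → InCube c y → f x = f y) :
    ∑ i, |fourier f {i}| ≤ Real.sqrt (∑ c ∈ F, (codim c : ℝ) / 2 ^ codim c)
      ∧ ∀ d : ℕ, (∀ c ∈ F, codim c ≤ d) → ∑ i, |fourier f {i}| ≤ Real.sqrt d := by
  classical
  obtain ⟨ε, hε⟩ : ∃ ε : Fin n → ℝ, ε = fun i => if 0 ≤ fourier f {i} then (1 : ℝ) else -1 :=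
    ⟨_, rfl⟩
  have hε2 : ∀ i, ε i ^ 2 = 1 := by
    intro i
    rw [hε]
    by_cases h : 0 ≤ fourier f {i}
    · simp [h]
    · simp [h]
  have hεabs : ∀ i, |fourier f {i}| = ε i * fourier f {i} := by
    intro i
    rw [hε]
    by_cases h : 0 ≤ fourier f {i}
    · simp only [if_pos h]
      rw [abs_of_nonneg h, one_mul]
    · simp only [if_neg h]
      rw [abs_of_neg (not_le.mp h)]
      ring
  have hm1 := part_mass F hcover hunamb
  -- the sum of absolute values as a sum over the cubes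
  have hW : ∑ i, |fourier f {i}| = ∑ c ∈ F, f (pt c) * (mass c * ∑ i, ε i * sig (c i)) := by
    calc ∑ i, |fourier f {i}| = ∑ i, ∑ c ∈ F, f (pt c) * (mass c * (ε i * sig (c i))) := by
          apply Finset.sum_congr rfl
          intro i _
          rw [hεabs i, part_fourier f F hcover hunamb hconst i, Finset.mul_sum]
          apply Finset.sum_congr rfl
          intro c _
          ring
      _ = ∑ c ∈ F, ∑ i, f (pt c) * (mass c * (ε i * sig (c i))) := Finset.sum_comm
      _ = ∑ c ∈ F, f (pt c) * (mass c * ∑ i, ε i * sig (c i)) := by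
          apply Finset.sum_congr rfl
          intro c _
          rw [Finset.mul_sum, Finset.mul_sum]
  obtain ⟨r, hr⟩ : ∃ r : ℝ, r = ∑ c ∈ F, mass c * |∑ i, ε i * sig (c i)| := ⟨_, rfl⟩
  have hWr : ∑ i, |fourier f {i}| ≤ r := by
    rw [hW, hr]
    apply Finset.sum_le_sum
    intro c _
    have h1 := hf (pt c)
    have h2 : f (pt c) * (mass c * ∑ i, ε i * sig (c i))
        = mass c * (f (pt c) * ∑ i, ε i * sig (c i)) := by ring
    rw [h2]
    apply mul_le_mul_of_nonneg_left _ (mass_pos c).le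
    calc f (pt c) * ∑ i, ε i * sig (c i) ≤ |f (pt c) * ∑ i, ε i * sig (c i)| := le_abs_self _
      _ = |f (pt c)| * |∑ i, ε i * sig (c i)| := abs_mul _ _
      _ ≤ 1 * |∑ i, ε i * sig (c i)| := mul_le_mul_of_nonneg_right h1 (abs_nonneg _)
      _ = |∑ i, ε i * sig (c i)| := one_mul _
  have hr0 : 0 ≤ r := by
    rw [hr]
    apply Finset.sum_nonneg
    intro c _
    exact mul_nonneg (mass_pos c).le (abs_nonneg _)
  -- Cauchy-Schwarz
  have hCS : r ^ 2 ≤ ∑ c ∈ F, mass c * (∑ i, ε i * sig (c i)) ^ 2 := by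
    have hnn : 0 ≤ ∑ c ∈ F, mass c * (|∑ i, ε i * sig (c i)| - r) ^ 2 := by
      apply Finset.sum_nonneg
      intro c _
      exact mul_nonneg (mass_pos c).le (sq_nonneg _)
    have hexp : ∑ c ∈ F, mass c * (|∑ i, ε i * sig (c i)| - r) ^ 2
        = ∑ c ∈ F, mass c * (∑ i, ε i * sig (c i)) ^ 2
          - 2 * r * (∑ c ∈ F, mass c * |∑ i, ε i * sig (c i)|) + r ^ 2 * ∑ c ∈ F, mass c := by
      rw [Finset.mul_sum, Finset.mul_sum, ← Finset.sum_sub_distrib, ← Finset.sum_add_distrib]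
      apply Finset.sum_congr rfl
      intro c _
      have := sq_abs (∑ i, ε i * sig (c i))
      ring_nf
      rw [this]
      ring
    rw [hexp, ← hr, hm1] at hnn
    nlinarith
  have hsec := part_second F hcover hunamb ε hε2
  have hK : ∑ c ∈ F, mass c * ∑ i, fx (c i) = ∑ c ∈ F, (codim c : ℝ) / 2 ^ codim c := by
    apply Finset.sum_congr rfl
    intro c _
    rw [ksum_codim, mass_eq, one_div_pow]
    ring
  have hK0 : 0 ≤ ∑ c ∈ F, (codim c : ℝ) / 2 ^ codim c := by
    apply Finset.sum_nonneg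
    intro c _
    positivity
  have hmain : ∑ i, |fourier f {i}| ≤ Real.sqrt (∑ c ∈ F, (codim c : ℝ) / 2 ^ codim c) := by
    have h1 : r ^ 2 ≤ (Real.sqrt (∑ c ∈ F, (codim c : ℝ) / 2 ^ codim c)) ^ 2 := by
      rw [Real.sq_sqrt hK0, ← hK]
      linarith
    have h2 := (abs_le_of_sq_le_sq' h1 (Real.sqrt_nonneg _)).2
    linarith
  refine ⟨hmain, ?_⟩
  intro d hd
  refine le_trans hmain (Real.sqrt_le_sqrt ?_)
  rw [← hK]
  calc ∑ c ∈ F, mass c * ∑ i, fx (c i) ≤ ∑ c ∈ F, mass c * (d : ℝ) := by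
        apply Finset.sum_le_sum
        intro c hc
        apply mul_le_mul_of_nonneg_left _ (mass_pos c).le
        rw [ksum_codim]
        exact_mod_cast hd c hc
    _ = (d : ℝ) := by rw [← Finset.sum_mul, hm1, one_mul]

end Vale.Agent.P047lib.Partition
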