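import Mathlib
import Vale.Agent.P047lib.TopMinusTwo
import Vale.Agent.P047lib.Udnf
import Vale.Agent.P047lib.Partition

namespace Vale.Agent.P047lib.Fano

open Finset
open Vale.Agent.Results.P047.DegTopMinusTwo
open Vale.Agent.P047lib.Udnf
open Vale.Agent.P047lib.Partition

/-- the seven patterns `x_t = x_{t+1} = x_{t+3} = true`, `x_{t+6} = false` (indices mod 7):
the point set contains the line `{t, t+1, t+3}` of the Fano plane and misses the point `t-1` -/
def P (t : Fin 7) : Fin 7 → Option Bool := fun i =>
  if i = t ∨ i = t + 1 ∨ i = t + 3 then some true else if i = t + 6 then some false else none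

/-- the family of the seven subcubes -/
def F : Finset (Fin 7 → Option Bool) := univ.image P

open Classical in
/-- the Fano-plane function: `-1` exactly on the union of the seven subcubes -/
noncomputable def f (x : Fin 7 → Bool) : ℝ := if ∃ c ∈ F, InCube c x then -1 else 1

lemma hf : ∀ x, f x = 1 ∨ f x = -1 := by
  intro x
  unfold f
  split_ifs
  · right; rfl
  · left; rfl

lemma hcover : ∀ x, f x = -1 ↔ ∃ c ∈ F, InCube c x := by
  intro x
  unfold f
  split_ifs with h
  · simp [h]
  · constructor
    · intro h1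
      norm_num at h1
    · intro h1
      exact absurd h1 h

lemma conflict : ∀ t u : Fin 7, t ≠ u →
    ∃ i, (P t i = some true ∧ P u i = some false) ∨ (P t i = some false ∧ P u i = some true) := by
  decide

lemma P_inj : ∀ t u : Fin 7, P t = P u → t = u := by
  intro t u h
  by_contra hne
  obtain ⟨i, hi | hi⟩ := conflict t u hne
  · rw [h] at hi
    rw [hi.2] at hi
    exact absurd hi.1 (by simp)
  · rw [h] at hi
    rw [hi.2] at hi
    exact absurd hi.1 (by simp)

lemma hunamb : ∀ x, ∀ c ∈ F, ∀ c' ∈ F, InCube c x → InCube c' x → c = c' := by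
  intro x c hc c' hc' h1 h2
  unfold F at hc hc'
  rw [Finset.mem_image] at hc hc'
  obtain ⟨t, _, rfl⟩ := hc
  obtain ⟨u, _, rfl⟩ := hc'
  by_cases htu : t = u
  · rw [htu]
  · exfalso
    obtain ⟨i, hi | hi⟩ := conflict t u htu
    · have a := h1 i true hi.1
      have b := h2 i false hi.2
      rw [a] at b
      exact absurd b (by simp)
    · have a := h1 i false hi.1
      have b := h2 i true hi.2
      rw [a] at b
      exact absurd b (by simp)

lemma codim_P : ∀ t : Fin 7, codim (P t) = 4 := by
  decide

/-- integer version of `sig` -/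
def isig (o : Option Bool) : ℤ :=
  match o with
  | none => 0
  | some b => if b then -1 else 1

lemma sig_eq (o : Option Bool) : sig o = (isig o : ℝ) := by
  cases o with
  | none => simp [sig, isig]
  | some b => cases b <;> simp [sig, isig, sg]

lemma isig_sum : ∀ t : Fin 7, ∑ j : Fin 7, isig (P t j) = -2 := by
  decide

lemma sig_sum (t : Fin 7) : ∑ j : Fin 7, sig (P t j) = -2 := by
  simp only [sig_eq]
  rw [← Int.cast_sum, isig_sum t]
  norm_num

lemma W_eq : ∑ j : Fin 7, fourier f {j} = 7 / 4 := by
  have h1 : ∀ j : Fin 7, fourier f {j} = -2 * ∑ t : Fin 7, mass (P t) * sig (P t j) := by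
    intro j
    rw [fourier_single f hf F hcover hunamb j]
    unfold F
    rw [Finset.sum_image (fun t _ u _ h => P_inj t u h)]
  simp only [h1]
  rw [← Finset.mul_sum, Finset.sum_comm]
  have h2 : ∀ t : Fin 7, ∑ j : Fin 7, mass (P t) * sig (P t j) = -(1 / 8 : ℝ) := by
    intro t
    rw [← Finset.mul_sum, sig_sum t, mass_eq, codim_P t]
    norm_num
  simp only [h2]
  simp
  norm_num

open Classical in
lemma cube_chi (c : Fin 7 → Option Bool) (T : Finset (Fin 7)) (h : ∃ i ∈ T, c i = none) :
    ∑ x : Fin 7 → Bool, (if InCube c x then chi T x else 0) = 0 := by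
  have e : ∀ x : Fin 7 → Bool, chi T x = ∏ i, (fun (i : Fin 7) (b : Bool) => if i ∈ T then sg b else 1) i (x i) := by
    intro x
    unfold chi
    rw [Finset.prod_ite_mem, Finset.univ_inter]
  simp only [e]
  rw [cube_sum c (fun (i : Fin 7) (b : Bool) => if i ∈ T then sg b else 1)]
  obtain ⟨i0, hi0, hc0⟩ := h
  apply Finset.prod_eq_zero (Finset.mem_univ i0)
  rw [hc0]
  simp [loc, hi0, sg]

lemma deg_le : ∀ T : Finset (Fin 7), 4 < T.card → fourier f T = 0 := by
  classical
  intro T hT
  unfold Vale.Agent.Results.P047.DegTopMinusTwo.fourier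
  rw [lin f hf (chi T), ← swap f F hcover hunamb (chi T)]
  have hne : ∃ i, i ∈ T := by
    apply Finset.card_pos.mp
    omega
  obtain ⟨i1, hi1⟩ := hne
  have hz : ∑ x : Fin 7 → Bool, chi T x = 0 := by
    have h := cube_chi (fun _ => none) T ⟨i1, hi1, rfl⟩
    rw [← h]
    apply Finset.sum_congr rfl
    intro x _
    rw [if_pos (inCube_none x)]
  have hc : ∀ c ∈ F, ∑ x : Fin 7 → Bool, (if InCube c x then chi T x else 0) = 0 := by
    intro c hcF
    apply cube_chi
    unfold F at hcF
    rw [Finset.mem_image] at hcF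
    obtain ⟨t, _, rfl⟩ := hcF
    by_contra hno
    push Not at hno
    have hsub : T ⊆ univ.filter (fun i => P t i ≠ none) := by
      intro i hi
      rw [Finset.mem_filter]
      exact ⟨Finset.mem_univ i, hno i hi⟩
    have hcard := Finset.card_le_card hsub
    have h4 := codim_P t
    unfold codim at h4
    omega
  rw [hz, Finset.sum_eq_zero hc]
  simp

end Vale.Agent.P047lib.Fano
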