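import Mathlib
import Vale.Agent.P047lib.TopMinusTwo

namespace Vale.Agent.Results.P047.HighDegree

open Finset
open Vale.Agent.Results.P047.DegTopMinusTwo

/-- trivial bound: a `[-1,1]`-valued function on `N` variables has `∑ f̂({i}) ≤ B N`. -/
lemma bound_all {N : ℕ} (f : (Fin N → Bool) → ℝ) (hf : ∀ x, |f x| ≤ 1) :
    ∑ i : Fin N, fourier f {i} ≤ B N := by
  rw [sum_fourier_singleton]
  have hB : B N = (∑ y : Fin N → Bool, |S y|) / 2 ^ N := rfl
  rw [hB]
  apply div_le_div_of_nonneg_right _ (by positivity)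
  have h := bound_of_dual f (fun _ => 0) hf (by simp)
  simpa using h

lemma sum_abs_succ (n : ℕ) :
    ∑ x : Fin (n + 1) → Bool, |S x| = ∑ y : Fin n → Bool, (|S y - 1| + |S y + 1|) := by
  rw [sum_cons]
  apply Finset.sum_congr rfl
  intro y _
  rw [Fintype.sum_bool, S_cons, S_cons, sg_true, sg_false]
  have e1 : (-1 : ℝ) + S y = S y - 1 := by ring
  have e2 : (1 : ℝ) + S y = S y + 1 := by ring
  rw [e1, e2]

lemma B_succ (n : ℕ) : B (n + 1) = (∑ y : Fin n → Bool, (|S y - 1| + |S y + 1|)) / 2 ^ (n + 1) := by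
  have hB : B (n + 1) = (∑ x : Fin (n + 1) → Bool, |S x|) / 2 ^ (n + 1) := rfl
  rw [hB, sum_abs_succ]

lemma B_eq (n : ℕ) : B n = (∑ y : Fin n → Bool, (2 * |S y|)) / 2 ^ (n + 1) := by
  have hB : B n = (∑ y : Fin n → Bool, |S y|) / 2 ^ n := rfl
  rw [hB, ← Finset.mul_sum, pow_succ]
  field_simp

lemma B_mono_succ (n : ℕ) : B n ≤ B (n + 1) := by
  rw [B_succ, B_eq]
  apply div_le_div_of_nonneg_right _ (by positivity)
  apply Finset.sum_le_sum
  intro y _
  have h1 : |S y - 1 + (S y + 1)| ≤ |S y - 1| + |S y + 1| := abs_add_le _ _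
  have h2 : S y - 1 + (S y + 1) = 2 * S y := by ring
  rw [h2, abs_mul] at h1
  simpa using h1

lemma B_mono {a b : ℕ} (h : a ≤ b) : B a ≤ B b :=
  monotone_nat_of_le_succ B_mono_succ h

lemma B_odd_succ (n j : ℕ) (hn : n = 2 * j + 1) : B (n + 1) = B n := by
  rw [B_succ, B_eq]
  congr 1
  apply Finset.sum_congr rfl
  intro y _
  have hnr : (n : ℝ) = 2 * (j : ℝ) + 1 := by rw [hn]; push_cast; ring
  rw [S_eq, hnr]
  rcases Nat.lt_or_ge j (cnt y) with h | h
  · have h3 : (j : ℝ) + 1 ≤ cnt y := by exact_mod_cast h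
    rw [abs_of_nonpos (by linarith), abs_of_nonpos (by linarith), abs_of_nonpos (by linarith)]
    ring
  · have h3 : (cnt y : ℝ) ≤ j := by exact_mod_cast h
    rw [abs_of_nonneg (by linarith), abs_of_nonneg (by linarith), abs_of_nonneg (by linarith)]
    ring

/-- two-term identity used for the case `deg ≤ N - 1`, `N` odd. -/
lemma two_even (t v : ℝ) (hv : v = 1 ∨ v = -1) (h : v = -1 → 2 ≤ |t|) :
    ∑ a : Bool, |sg a + t - v * sg a| = 2 * |t| := by
  simp only [Fintype.sum_bool, sg_true, sg_false]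
  rcases hv with rfl | rfl
  · have e1 : (-1 : ℝ) + t - 1 * -1 = t := by ring
    have e2 : (1 : ℝ) + t - 1 * 1 = t := by ring
    rw [e1, e2]; ring
  · have h2 := h rfl
    have e1 : (-1 : ℝ) + t - -1 * -1 = t - 2 := by ring
    have e2 : (1 : ℝ) + t - -1 * 1 = t + 2 := by ring
    rw [e1, e2]
    rcases le_abs.mp h2 with h3 | h3
    · rw [abs_of_nonneg (by linarith), abs_of_nonneg (by linarith), abs_of_nonneg (by linarith)]
      ring
    · rw [abs_of_nonpos (by linarith), abs_of_nonpos (by linarith), abs_of_nonpos (by linarith)]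
      ring

lemma sum_top_even (n h : ℕ) (hn : n = 2 * h) :
    ∑ x : Fin (n + 1) → Bool, |S x - (-1 : ℝ) ^ h * chi univ x|
      = ∑ y : Fin n → Bool, (2 * |S y|) := by
  rw [sum_cons]
  apply Finset.sum_congr rfl
  intro y _
  have e : ∀ a : Bool,
      S (Fin.cons a y : Fin (n + 1) → Bool)
        - (-1 : ℝ) ^ h * chi univ (Fin.cons a y : Fin (n + 1) → Bool)
      = sg a + S y - ((-1 : ℝ) ^ h * chi univ y) * sg a := by
    intro a
    rw [S_cons, chi_cons]
    ring
  simp only [e]
  apply two_even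
  · rw [chi_eq, ← pow_add]
    exact neg_one_pow_eq_or ℝ _
  · intro hv1
    rw [chi_eq, ← pow_add] at hv1
    have hm : cnt y ≠ h := by
      intro hm
      rw [hm, ← two_mul, pow_mul] at hv1
      norm_num at hv1
    have hnr : (n : ℝ) = 2 * (h : ℝ) := by rw [hn]; push_cast; ring
    rw [S_eq, hnr]
    rcases lt_or_gt_of_ne hm with hlt | hgt
    · have h3 : (cnt y : ℝ) + 1 ≤ h := by exact_mod_cast hlt
      rw [abs_of_nonneg (by linarith)]
      linarith
    · have h3 : (h : ℝ) + 1 ≤ cnt y := by exact_mod_cast hgt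
      rw [abs_of_nonpos (by linarith)]
      linarith

/-- the case `deg f ≤ N - 1` (only the top Fourier coefficient vanishes). -/
lemma bound_top (n : ℕ) (f : (Fin (n + 1) → Bool) → ℝ) (hf : ∀ x, |f x| ≤ 1)
    (htop : fourier f univ = 0) :
    ∑ i : Fin (n + 1), fourier f {i} ≤ B n := by
  rcases Nat.even_or_odd' n with ⟨h, hn | hn⟩
  · rw [sum_fourier_singleton, B_eq]
    apply div_le_div_of_nonneg_right _ (by positivity)
    rw [← sum_top_even n h hn]
    apply bound_of_dual f _ hf
    have h0 : ∑ x, f x * chi univ x = 0 := by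
      unfold DegTopMinusTwo.fourier at htop
      exact (div_eq_zero_iff.mp htop).resolve_right (by positivity)
    simp only [mul_left_comm (f _) ((-1 : ℝ) ^ h) _, ← Finset.mul_sum, h0, mul_zero]
  · rw [← B_odd_succ n h hn]
    exact bound_all f hf

/-- **O'Donnell's bound in high degree.** Let `f : {-1,1}^N → [-1,1]` (in particular any Boolean
function) have no Fourier coefficient of order more than `d` (i.e. `deg f ≤ d`). If `N ≤ d + 2`,
or if `N` is even and `N ≤ d + 3`, then `∑_i f̂({i}) ≤ B_d`. -/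
theorem result (N d : ℕ) (f : (Fin N → Bool) → ℝ)
    (hf : ∀ x, |f x| ≤ 1)
    (hdeg : ∀ T : Finset (Fin N), d < T.card → fourier f T = 0)
    (hN : N ≤ d + 2 ∨ (Even N ∧ N ≤ d + 3)) :
    ∑ i : Fin N, fourier f {i} ≤ B d := by
  rcases Nat.lt_or_ge d N with hlt | hge
  · -- d < N
    rcases Nat.lt_or_ge (d + 1) N with hlt2 | hge2
    · rcases Nat.lt_or_ge (d + 2) N with hlt3 | hge3
      · -- N = d + 3, N even
        rcases hN with hN | ⟨hev, hN⟩
        · omega
        · have hNd : N = (d + 1) + 2 := by omega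
          subst hNd
          have hodd : ∃ j, d = 2 * j + 1 := by
            rcases hev with ⟨r, hr⟩
            exact ⟨r - 2, by omega⟩
          obtain ⟨j, hj⟩ := hodd
          rw [← B_odd_succ d j hj]
          apply DegTopMinusTwo.result (d + 1) f hf
          intro T hT
          exact hdeg T (by omega)
      · have hNd : N = d + 2 := by omega
        subst hNd
        exact DegTopMinusTwo.result d f hf hdeg
    · have hNd : N = d + 1 := by omega
      subst hNd
      exact bound_top d f hf (hdeg univ (by simp))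
  · exact (bound_all f hf).trans (B_mono hge)

end Vale.Agent.Results.P047.HighDegree
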