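import Mathlib
import Vale.Agent.P047lib.TopMinusTwo
import Vale.Agent.P047lib.HighDeg
import Vale.Agent.P047lib.Biased

namespace Vale.Agent.P047lib.Four

open Finset
open Vale.Agent.Results.P047.DegTopMinusTwo
open Vale.Agent.P047lib.Biased

/-- restriction of `f` obtained by fixing coordinate `i` to the bit `b` -/
def restr {n : ℕ} (i : Fin (n + 1)) (b : Bool) (f : (Fin (n + 1) → Bool) → ℝ) :
    (Fin n → Bool) → ℝ :=
  fun y => f (Fin.insertNth i b y)

/-- sum of the degree-one Fourier coefficients -/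
noncomputable def W {n : ℕ} (f : (Fin n → Bool) → ℝ) : ℝ := ∑ i, fourier f {i}

lemma sum_insertNth {n : ℕ} (i : Fin (n + 1)) (F : (Fin (n + 1) → Bool) → ℝ) :
    ∑ x, F x = ∑ y : Fin n → Bool, ∑ a : Bool, F (Fin.insertNth i a y) := by
  rw [← (Equiv.sum_comp (Fin.insertNthEquiv (fun _ : Fin (n + 1) => Bool) i) F)]
  rw [Fintype.sum_prod_type, Finset.sum_comm]
  rfl

lemma chi_map' {n : ℕ} (i : Fin (n + 1)) (T : Finset (Fin n)) (a : Bool) (y : Fin n → Bool) :
    chi (T.map (Fin.succAboveEmb i)) (Fin.insertNth i a y : Fin (n + 1) → Bool) = chi T y := by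
  unfold chi
  rw [Finset.prod_map]
  simp

lemma notMem_map' {n : ℕ} (i : Fin (n + 1)) (T : Finset (Fin n)) :
    i ∉ T.map (Fin.succAboveEmb i) := by
  intro h
  rcases Finset.mem_map.mp h with ⟨j, _, hj⟩
  exact Fin.succAbove_ne i j hj

lemma chi_insert' {n : ℕ} (i : Fin (n + 1)) (T : Finset (Fin n)) (a : Bool) (y : Fin n → Bool) :
    chi (insert i (T.map (Fin.succAboveEmb i))) (Fin.insertNth i a y : Fin (n + 1) → Bool)
      = sg a * chi T y := by
  have h := chi_map' i T a y
  unfold chi at h ⊢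
  rw [Finset.prod_insert (notMem_map' i T), h]
  simp

lemma fourier_restr {n : ℕ} (i : Fin (n + 1)) (b : Bool) (f : (Fin (n + 1) → Bool) → ℝ)
    (T : Finset (Fin n)) :
    fourier (restr i b f) T = fourier f (T.map (Fin.succAboveEmb i))
      + sg b * fourier f (insert i (T.map (Fin.succAboveEmb i))) := by
  unfold Vale.Agent.Results.P047.DegTopMinusTwo.fourier
  rw [sum_insertNth i (fun x => f x * chi (T.map (Fin.succAboveEmb i)) x),
    sum_insertNth i (fun x => f x * chi (insert i (T.map (Fin.succAboveEmb i))) x)]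
  simp only [Fintype.sum_bool, chi_map', chi_insert', sg_true, sg_false]
  rw [Finset.sum_add_distrib, Finset.sum_add_distrib, pow_succ]
  have e1 : ∑ y : Fin n → Bool, f (Fin.insertNth i true y) * (-1 * chi T y)
      = - ∑ y : Fin n → Bool, f (Fin.insertNth i true y) * chi T y := by
    rw [← Finset.sum_neg_distrib]
    apply Finset.sum_congr rfl; intro y _; ring
  have e2 : ∑ y : Fin n → Bool, f (Fin.insertNth i false y) * (1 * chi T y)
      = ∑ y : Fin n → Bool, f (Fin.insertNth i false y) * chi T y := by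
    apply Finset.sum_congr rfl; intro y _; ring
  rw [e1, e2]
  cases b
  · simp only [restr, sg_false]
    field_simp
    ring
  · simp only [restr, sg_true]
    field_simp
    ring

lemma restr_bool {n : ℕ} (i : Fin (n + 1)) (b : Bool) (f : (Fin (n + 1) → Bool) → ℝ)
    (hf : ∀ x, f x = 1 ∨ f x = -1) : ∀ y, restr i b f y = 1 ∨ restr i b f y = -1 :=
  fun _ => hf _

lemma restr_deg {n : ℕ} (i : Fin (n + 1)) (b : Bool) (f : (Fin (n + 1) → Bool) → ℝ)
    (hdeg : ∀ T : Finset (Fin (n + 1)), 4 < T.card → fourier f T = 0) :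
    ∀ T : Finset (Fin n), 4 < T.card → fourier (restr i b f) T = 0 := by
  intro T hT
  rw [fourier_restr, hdeg _ (by rw [Finset.card_map]; exact hT),
    hdeg _ (by rw [Finset.card_insert_of_notMem (notMem_map' i T), Finset.card_map]; omega)]
  simp

lemma W_restr_add {n : ℕ} (i : Fin (n + 1)) (f : (Fin (n + 1) → Bool) → ℝ) :
    W (restr i false f) + W (restr i true f) = 2 * (W f - fourier f {i}) := by
  have h1 : W f = fourier f {i} + ∑ j : Fin n, fourier f {i.succAbove j} :=
    Fin.sum_univ_succAbove _ i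
  have h2 : ∀ b : Bool, W (restr i b f)
      = ∑ j : Fin n, (fourier f {i.succAbove j} + sg b * fourier f {i, i.succAbove j}) := by
    intro b
    unfold W
    apply Finset.sum_congr rfl
    intro j _
    rw [fourier_restr]
    simp
  rw [h2 false, h2 true, h1, ← Finset.sum_add_distrib, sg_true, sg_false]
  have e : ∀ j : Fin n, (fourier f {i.succAbove j} + 1 * fourier f {i, i.succAbove j}
      + (fourier f {i.succAbove j} + -1 * fourier f {i, i.succAbove j}))
      = 2 * fourier f {i.succAbove j} := by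
    intro j; ring
  simp only [e]
  rw [← Finset.mul_sum]
  ring

lemma step_bound {n : ℕ} (M : ℝ) (f : (Fin (n + 1) → Bool) → ℝ)
    (h : ∀ i b, W (restr i b f) ≤ M) : (n : ℝ) * W f ≤ (n + 1) * M := by
  have h1 : ∀ i, W f - fourier f {i} ≤ M := by
    intro i
    have := W_restr_add i f
    linarith [h i false, h i true]
  have h2 : ∑ i : Fin (n + 1), (W f - fourier f {i}) ≤ ∑ _i : Fin (n + 1), M :=
    Finset.sum_le_sum (fun i _ => h1 i)
  rw [Finset.sum_sub_distrib] at h2
  simp only [Finset.sum_const, Finset.card_univ, Fintype.card_fin, nsmul_eq_mul] at h2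
  have h3 : ∑ i : Fin (n + 1), fourier f {i} = W f := rfl
  rw [h3] at h2
  push_cast at h2
  linarith

lemma tight {n : ℕ} (M : ℝ) (f : (Fin (n + 1) → Bool) → ℝ)
    (h : ∀ i b, W (restr i b f) ≤ M) (hW : (n : ℝ) * W f = (n + 1) * M) :
    (∀ i, fourier f {i} = W f - M) ∧ ∀ i b, W (restr i b f) = M := by
  have h1 : ∀ i, W f - fourier f {i} ≤ M := by
    intro i
    have := W_restr_add i f
    linarith [h i false, h i true]
  have hs : ∑ i : Fin (n + 1), (fourier f {i} - (W f - M)) = 0 := by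
    rw [Finset.sum_sub_distrib]
    simp only [Finset.sum_const, Finset.card_univ, Fintype.card_fin, nsmul_eq_mul]
    have h3 : ∑ i : Fin (n + 1), fourier f {i} = W f := rfl
    rw [h3]
    push_cast
    linarith
  have hz := (Finset.sum_eq_zero_iff_of_nonneg (fun i _ => by linarith [h1 i])).mp hs
  have hall : ∀ i, fourier f {i} = W f - M := by
    intro i
    have := hz i (Finset.mem_univ i)
    linarith
  refine ⟨hall, ?_⟩
  intro i b
  have := W_restr_add i f
  have h4 := hall i
  cases b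
  · linarith [h i false, h i true]
  · linarith [h i false, h i true]


/-! ### the base case -/

noncomputable def Tsum (n : ℕ) (c : ℝ) : ℝ := ∑ y : Fin n → Bool, |S y + c|

lemma Tsum_zero (c : ℝ) : Tsum 0 c = |c| := by
  unfold Tsum S
  simp

lemma Tsum_succ (n : ℕ) (c : ℝ) : Tsum (n + 1) c = Tsum n (c - 1) + Tsum n (c + 1) := by
  unfold Tsum
  rw [sum_cons, ← Finset.sum_add_distrib]
  apply Finset.sum_congr rfl
  intro y _
  rw [Fintype.sum_bool, S_cons, S_cons, sg_true, sg_false]
  congr 1 <;> congr 1 <;> ring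

lemma B_four : B 4 = 3 / 2 := by
  have h : B 4 = Tsum 4 0 / 2 ^ 4 := by
    unfold B Tsum S
    simp
  rw [h]
  simp only [Tsum_succ, Tsum_zero]
  norm_num

lemma base6 {n : ℕ} (hn : n ≤ 6) (f : (Fin n → Bool) → ℝ) (hf : ∀ x, f x = 1 ∨ f x = -1)
    (hdeg : ∀ T : Finset (Fin n), 4 < T.card → fourier f T = 0) : W f ≤ 3 / 2 := by
  have habs : ∀ x, |f x| ≤ 1 := by
    intro x
    rcases hf x with h | h <;> rw [h] <;> norm_num
  have := Vale.Agent.Results.P047.HighDegree.result n 4 f habs hdeg (Or.inl (by omega))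
  rw [B_four] at this
  exact this

/-! ### the bias polynomial -/

open Polynomial in
lemma exists_poly2 : ∀ (n : ℕ) (f : (Fin n → Bool) → ℝ),
    ∃ P : ℝ[X], (∀ t : ℝ, P.eval t = Ex t f) ∧
      ∀ k : ℕ, (∀ T : Finset (Fin n), T.card = k → fourier f T = 0) → P.coeff k = 0 := by
  intro n
  induction n with
  | zero =>
    intro f
    refine ⟨C (f Fin.elim0), ?_, ?_⟩
    · intro t
      rw [Polynomial.eval_C, Ex_zero]
    · intro k hk
      rcases Nat.eq_zero_or_pos k with rfl | hpos
      · have h0 := hk ∅ (by simp)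
        rw [Biased.fourier_zero] at h0
        rw [h0]; simp
      · rw [Polynomial.coeff_C, if_neg (by omega)]
  | succ n ih =>
    intro f
    obtain ⟨g, hg⟩ : ∃ g : (Fin n → Bool) → ℝ,
        g = fun y => (1 / 2) * r0 f y + (1 / 2) * r1 f y := ⟨_, rfl⟩
    obtain ⟨h, hh⟩ : ∃ h : (Fin n → Bool) → ℝ,
        h = fun y => (1 / 2) * r0 f y + (-1 / 2) * r1 f y := ⟨_, rfl⟩
    obtain ⟨Pg, hPg1, hPg2⟩ := ih g
    obtain ⟨Ph, hPh1, hPh2⟩ := ih h
    refine ⟨Pg + X * Ph, ?_, ?_⟩
    · intro t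
      rw [Polynomial.eval_add, Polynomial.eval_mul, Polynomial.eval_X, hPg1, hPh1, Ex_cons, hg, hh,
        Ex_lin, Ex_lin]
      ring
    · intro k hk
      have hgk : Pg.coeff k = 0 := by
        apply hPg2
        intro T hT
        have h1 := hk (T.map (Fin.succEmb n)) (by rw [card_map_succ]; exact hT)
        rw [fourier_map] at h1
        rw [hg, fourier_lin]
        linarith
      rw [Polynomial.coeff_add, hgk, zero_add]
      rcases k with _ | j
      · exact Polynomial.coeff_X_mul_zero Ph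
      · rw [Polynomial.coeff_X_mul]
        apply hPh2
        intro T hT
        have h1 := hk (insert 0 (T.map (Fin.succEmb n))) (by rw [card_insert_map]; omega)
        rw [fourier_insert] at h1
        rw [hh, fourier_lin]
        linarith

lemma Ex_one_pt : ∀ (n : ℕ) (f : (Fin n → Bool) → ℝ), Ex 1 f = f (fun _ => false) := by
  intro n
  induction n with
  | zero =>
    intro f
    rw [Ex_zero]
    congr 1
    funext i
    exact i.elim0
  | succ n ih =>
    intro f
    rw [Ex_cons, ih (r0 f), ih (r1 f)]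
    have e : (Fin.cons false (fun _ : Fin n => false) : Fin (n + 1) → Bool) = fun _ => false := by
      funext i
      refine Fin.cases ?_ ?_ i <;> simp
    simp only [r0]
    rw [e]
    ring

lemma Ex_neg_one_pt : ∀ (n : ℕ) (f : (Fin n → Bool) → ℝ), Ex (-1) f = f (fun _ => true) := by
  intro n
  induction n with
  | zero =>
    intro f
    rw [Ex_zero]
    congr 1
    funext i
    exact i.elim0
  | succ n ih =>
    intro f
    rw [Ex_cons, ih (r0 f), ih (r1 f)]
    have e : (Fin.cons true (fun _ : Fin n => true) : Fin (n + 1) → Bool) = fun _ => true := by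
      funext i
      refine Fin.cases ?_ ?_ i <;> simp
    simp only [r1]
    rw [e]
    ring

open Polynomial in
lemma poly_pack {n : ℕ} (f : (Fin n → Bool) → ℝ) :
    ∃ P : ℝ[X], (∀ t : ℝ, P.eval t = Ex t f) ∧
      (∀ k : ℕ, (∀ T : Finset (Fin n), T.card = k → fourier f T = 0) → P.coeff k = 0) ∧
      P.coeff 1 = W f := by
  obtain ⟨P, h1, h2⟩ := exists_poly2 n f
  refine ⟨P, h1, h2, ?_⟩
  have hder : (derivative P).eval 0 = Ds 0 f := by
    have ha := P.hasDerivAt 0
    have e : (fun x => eval x P) = fun s => Ex s f := by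
      funext s; exact h1 s
    rw [e] at ha
    exact ha.unique (hasDerivAt_Ex n f 0)
  rw [Ds_zero_eq] at hder
  have hc : (derivative P).eval 0 = P.coeff 1 := by
    rw [← Polynomial.coeff_zero_eq_eval_zero, Polynomial.coeff_derivative]
    simp
  rw [← hc, hder]
  rfl

open Polynomial in
lemma eval5 (P : ℝ[X]) (h : ∀ k, 5 ≤ k → P.coeff k = 0) (t : ℝ) :
    P.eval t = P.coeff 0 + P.coeff 1 * t + P.coeff 2 * t ^ 2 + P.coeff 3 * t ^ 3
      + P.coeff 4 * t ^ 4 := by
  have hd : P.natDegree < 5 := by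
    have : P.natDegree ≤ 4 := by
      rw [Polynomial.natDegree_le_iff_coeff_eq_zero]
      intro k hk
      exact h k (by omega)
    omega
  rw [Polynomial.eval_eq_sum_range' hd]
  simp [Finset.sum_range_succ]


/-! ### granularity -/

/-- number of `true` coordinates -/
def ca {n : ℕ} (x : Fin n → Bool) : ℕ := (univ.filter (fun i => x i = true)).card

/-- number of `false` coordinates -/
def cb {n : ℕ} (x : Fin n → Bool) : ℕ := (univ.filter (fun i => ¬ x i = true)).card

lemma wt_eq {n : ℕ} (p : ℝ) (x : Fin n → Bool) :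
    wt (1 - 2 * p) x = p ^ ca x * (1 - p) ^ cb x := by
  unfold wt ca cb
  have h : ∀ i : Fin n, (1 + (1 - 2 * p) * sg (x i)) / 2 = if x i = true then p else 1 - p := by
    intro i
    cases h : x i <;> simp [sg] <;> ring
  simp only [h]
  rw [Finset.prod_ite]
  simp

open Polynomial in
/-- the integer polynomial `p ↦ Pr_p[f = -1]` -/
noncomputable def Rz {n : ℕ} (f : (Fin n → Bool) → ℝ) : ℤ[X] :=
  ∑ x ∈ univ.filter (fun x => f x = -1), X ^ ca x * (1 - X) ^ cb x

open Polynomial in
lemma Rz_eval {n : ℕ} (f : (Fin n → Bool) → ℝ) (p : ℝ) :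
    ((Rz f).map (Int.castRingHom ℝ)).eval p
      = ∑ x ∈ univ.filter (fun x => f x = -1), p ^ ca x * (1 - p) ^ cb x := by
  unfold Rz
  simp [Polynomial.map_sum, Polynomial.eval_finsetSum]

open Polynomial in
lemma Ex_eq_Rz {n : ℕ} (f : (Fin n → Bool) → ℝ) (hf : ∀ x, f x = 1 ∨ f x = -1) (p : ℝ) :
    Ex (1 - 2 * p) f = 1 - 2 * ((Rz f).map (Int.castRingHom ℝ)).eval p := by
  rw [Rz_eval]
  unfold Ex
  have h1 : ∀ x : Fin n → Bool, wt (1 - 2 * p) x * f x
      = wt (1 - 2 * p) x - 2 * (if f x = -1 then p ^ ca x * (1 - p) ^ cb x else 0) := by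
    intro x
    rcases hf x with h | h
    · rw [h]; norm_num
    · rw [h, if_pos rfl, wt_eq]; ring
  simp only [h1]
  rw [Finset.sum_sub_distrib, sum_wt, ← Finset.mul_sum, Finset.sum_filter]

open Polynomial in
lemma granular {n : ℕ} (f : (Fin n → Bool) → ℝ) (hf : ∀ x, f x = 1 ∨ f x = -1)
    (hdeg : ∀ T : Finset (Fin n), 4 < T.card → fourier f T = 0) :
    ∃ m : ℤ, 4 * W f = m := by
  obtain ⟨P, hP1, hP2, hP3⟩ := poly_pack f
  have hk : ∀ k, 5 ≤ k → P.coeff k = 0 := fun k hk => hP2 k (fun T hT => hdeg T (by omega))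
  obtain ⟨R, hR⟩ : ∃ R : ℝ[X], R = (Rz f).map (Int.castRingHom ℝ) := ⟨_, rfl⟩
  have hrel : ∀ p : ℝ, P.eval (1 - 2 * p) = 1 - 2 * R.eval p := by
    intro p
    rw [hP1, hR, Ex_eq_Rz f hf p]
  have hRpoly : R = C (1 / 2) * (1 - P.comp (1 - C 2 * X)) := by
    apply Polynomial.funext
    intro p
    simp only [eval_mul, eval_C, eval_sub, eval_one, eval_comp, eval_X]
    have := hrel p
    linarith
  have hPdeg : P.natDegree ≤ 4 := by
    rw [Polynomial.natDegree_le_iff_coeff_eq_zero]
    intro k hk'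
    exact hk k (by omega)
  have hLdeg : (1 - C 2 * X : ℝ[X]).natDegree ≤ 1 := by
    calc (1 - C 2 * X : ℝ[X]).natDegree
        ≤ max (1 : ℝ[X]).natDegree (C 2 * X : ℝ[X]).natDegree := Polynomial.natDegree_sub_le _ _
      _ ≤ 1 := by
        rw [Polynomial.natDegree_one]
        apply max_le (by omega)
        exact (Polynomial.natDegree_C_mul_le _ _).trans (by simp)
  have hRdeg : R.natDegree ≤ 4 := by
    rw [hRpoly]
    calc (C (1 / 2 : ℝ) * (1 - P.comp (1 - C 2 * X))).natDegree
        ≤ (1 - P.comp (1 - C 2 * X)).natDegree := Polynomial.natDegree_C_mul_le _ _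
      _ ≤ max (1 : ℝ[X]).natDegree (P.comp (1 - C 2 * X)).natDegree :=
          Polynomial.natDegree_sub_le _ _
      _ ≤ 4 := by
        rw [Polynomial.natDegree_one]
        apply max_le (by omega)
        calc (P.comp (1 - C 2 * X)).natDegree
            ≤ P.natDegree * (1 - C 2 * X : ℝ[X]).natDegree := Polynomial.natDegree_comp_le
          _ ≤ 4 * 1 := Nat.mul_le_mul hPdeg hLdeg
          _ = 4 := by norm_num
  have hRe : ∀ p : ℝ, R.eval p = ((Rz f).coeff 0 : ℝ) + ((Rz f).coeff 1 : ℝ) * p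
      + ((Rz f).coeff 2 : ℝ) * p ^ 2 + ((Rz f).coeff 3 : ℝ) * p ^ 3
      + ((Rz f).coeff 4 : ℝ) * p ^ 4 := by
    intro p
    have hd : R.natDegree < 5 := by omega
    rw [Polynomial.eval_eq_sum_range' hd, hR]
    simp [Finset.sum_range_succ, Polynomial.coeff_map]
  have hPe := eval5 P hk
  have e1 := hrel 0
  have e2 := hrel 1
  have e3 := hrel (-1 / 2)
  have e4 := hrel (3 / 2)
  rw [hPe, hRe] at e1 e2 e3 e4
  refine ⟨4 * (Rz f).coeff 1 + 4 * (Rz f).coeff 2 + 3 * (Rz f).coeff 3 + 2 * (Rz f).coeff 4, ?_⟩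
  push_cast
  rw [← hP3]
  linear_combination (8 / 3 : ℝ) * e1 - (8 / 3 : ℝ) * e2 - (1 / 3 : ℝ) * e3 + (1 / 3 : ℝ) * e4


/-! ### the class and the equality analysis -/

/-- Boolean functions with no Fourier coefficient above level `4` -/
def Cls {n : ℕ} (f : (Fin n → Bool) → ℝ) : Prop :=
  (∀ x, f x = 1 ∨ f x = -1) ∧ ∀ T : Finset (Fin n), 4 < T.card → fourier f T = 0

lemma Cls.restr {n : ℕ} {f : (Fin (n + 1) → Bool) → ℝ} (h : Cls f) (i : Fin (n + 1)) (b : Bool) :
    Cls (restr i b f) :=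
  ⟨restr_bool i b f h.1, restr_deg i b f h.2⟩

lemma flat_pairs {n : ℕ} (c : ℝ) (f : (Fin (n + 1) → Bool) → ℝ) (hf : ∀ i, fourier f {i} = c)
    (hr : ∀ i b j, fourier (restr i b f) {j} = c) :
    ∀ T : Finset (Fin (n + 1)), T.card = 2 → fourier f T = 0 := by
  intro T hT
  obtain ⟨a, b, hab, rfl⟩ := Finset.card_eq_two.mp hT
  obtain ⟨j, hj⟩ := Fin.exists_succAbove_eq hab.symm
  have h := hr a false j
  rw [fourier_restr, Finset.map_singleton, sg_false] at h
  simp only [Fin.succAboveEmb_apply] at h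
  rw [hj, hf b] at h
  linarith

lemma pairs_triples {n : ℕ} (f : (Fin (n + 1) → Bool) → ℝ)
    (hp : ∀ T : Finset (Fin (n + 1)), T.card = 2 → fourier f T = 0)
    (hr : ∀ i b, ∀ T : Finset (Fin n), T.card = 2 → fourier (restr i b f) T = 0) :
    ∀ T : Finset (Fin (n + 1)), T.card = 3 → fourier f T = 0 := by
  intro T hT
  obtain ⟨a, b, c, hab, hac, hbc, rfl⟩ := Finset.card_eq_three.mp hT
  obtain ⟨j, hj⟩ := Fin.exists_succAbove_eq hab.symm
  obtain ⟨l, hl⟩ := Fin.exists_succAbove_eq hac.symm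
  have hjl : j ≠ l := by
    rintro rfl
    exact hbc (hj.symm.trans hl)
  have h := hr a false {j, l} (Finset.card_pair hjl)
  rw [fourier_restr, sg_false] at h
  have e : ({j, l} : Finset (Fin n)).map (Fin.succAboveEmb a) = {b, c} := by
    rw [Finset.map_insert, Finset.map_singleton]
    simp [hj, hl]
  rw [e, hp {b, c} (Finset.card_pair hbc)] at h
  linarith

theorem thm7 (f : (Fin 7 → Bool) → ℝ) (h : Cls f) : W f ≤ 7 / 4 := by
  have hb := step_bound (n := 6) (3 / 2) f
    (fun i b => base6 (le_refl 6) _ (h.restr i b).1 (h.restr i b).2)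
  norm_num at hb
  linarith

theorem thm8 (f : (Fin 8 → Bool) → ℝ) (h : Cls f) : W f ≤ 2 := by
  have hb := step_bound (n := 7) (7 / 4) f (fun i b => thm7 _ (h.restr i b))
  norm_num at hb
  linarith

theorem thm9 (f : (Fin 9 → Bool) → ℝ) (h : Cls f) : W f ≤ 2 := by
  by_contra hcon
  push Not at hcon
  have hb := step_bound (n := 8) 2 f (fun i b => thm8 _ (h.restr i b))
  norm_num at hb
  obtain ⟨m, hm⟩ := granular f h.1 h.2
  have hm1 : (8 : ℝ) < m := by rw [← hm]; linarith
  have hm2 : (m : ℝ) ≤ 9 := by rw [← hm]; linarith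
  have hm1' : 8 < m := by exact_mod_cast hm1
  have hm2' : m ≤ 9 := by exact_mod_cast hm2
  have hm9 : m = 9 := by omega
  have hW : W f = 9 / 4 := by
    rw [hm9] at hm
    push_cast at hm
    linarith
  obtain ⟨hflat, hres⟩ := tight (n := 8) 2 f (fun i b => thm8 _ (h.restr i b))
    (by rw [hW]; norm_num)
  have hflat' : ∀ i, fourier f {i} = 1 / 4 := by
    intro i
    rw [hflat i, hW]
    norm_num
  have lev8 : ∀ i b, (∀ j, fourier (restr i b f) {j} = 1 / 4)
      ∧ ∀ j c, W (restr j c (restr i b f)) = 7 / 4 := by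
    intro i b
    obtain ⟨h1, h2⟩ := tight (n := 7) (7 / 4) (restr i b f)
      (fun j c => thm7 _ ((h.restr i b).restr j c)) (by rw [hres i b]; norm_num)
    refine ⟨fun j => ?_, h2⟩
    rw [h1 j, hres i b]
    norm_num
  have lev7 : ∀ i b j c, ∀ l, fourier (restr j c (restr i b f)) {l} = 1 / 4 := by
    intro i b j c
    obtain ⟨h1, _⟩ := tight (n := 6) (3 / 2) (restr j c (restr i b f))
      (fun l e => base6 (le_refl 6) _ (((h.restr i b).restr j c).restr l e).1
        (((h.restr i b).restr j c).restr l e).2)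
      (by rw [(lev8 i b).2 j c]; norm_num)
    intro l
    rw [h1 l, (lev8 i b).2 j c]
    norm_num
  have hp8 : ∀ i b, ∀ T : Finset (Fin 8), T.card = 2 → fourier (restr i b f) T = 0 :=
    fun i b => flat_pairs (1 / 4) (restr i b f) (lev8 i b).1 (fun j c l => lev7 i b j c l)
  have hp9 : ∀ T : Finset (Fin 9), T.card = 2 → fourier f T = 0 :=
    flat_pairs (1 / 4) f hflat' (fun i b j => (lev8 i b).1 j)
  have ht9 := pairs_triples f hp9 hp8
  obtain ⟨P, hP1, hP2, hP3⟩ := poly_pack f
  have hk : ∀ k, 5 ≤ k → P.coeff k = 0 := fun k hk => hP2 k (fun T hT => h.2 T (by omega))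
  have hPe := eval5 P hk
  have e1 := hP1 1
  have e2 := hP1 (-1)
  rw [hPe, Ex_one_pt] at e1
  rw [hPe, Ex_neg_one_pt] at e2
  rw [hP2 2 hp9, hP2 3 ht9, hP3, hW] at e1 e2
  rcases h.1 (fun _ => false) with h1 | h1 <;> rcases h.1 (fun _ => true) with h2 | h2 <;>
    rw [h1] at e1 <;> rw [h2] at e2 <;> linarith

theorem thm_ge : ∀ n : ℕ, 9 ≤ n → ∀ f : (Fin n → Bool) → ℝ, Cls f → W f ≤ 2 := by
  intro n hn
  induction n, hn using Nat.le_induction with
  | base => exact thm9
  | succ n hn ih =>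
    intro f h
    have hb := step_bound (n := n) 2 f (fun i b => ih _ (h.restr i b))
    obtain ⟨m, hm⟩ := granular f h.1 h.2
    have hn' : (9 : ℝ) ≤ n := by exact_mod_cast hn
    have hlt : 4 * W f < 9 := by
      by_contra hc
      push Not at hc
      have h3 := mul_le_mul_of_nonneg_left hc (by linarith : (0 : ℝ) ≤ n)
      linarith
    have hm' : (m : ℝ) < 9 := by rw [← hm]; exact hlt
    have hm'' : m < 9 := by exact_mod_cast hm'
    have hm3 : (m : ℝ) ≤ 8 := by exact_mod_cast (show m ≤ 8 by omega)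
    rw [← hm] at hm3
    linarith

/-- every Boolean function of degree at most `4` has `∑ f̂({i}) ≤ 2`. -/
theorem main (n : ℕ) (f : (Fin n → Bool) → ℝ) (h : Cls f) : W f ≤ 2 := by
  rcases Nat.lt_or_ge n 9 with hlt | hge
  · rcases Nat.lt_or_ge n 7 with h6 | h7
    · have := base6 (by omega) f h.1 h.2
      linarith
    · have h78 : n = 7 ∨ n = 8 := by omega
      rcases h78 with rfl | rfl
      · have := thm7 f h
        linarith
      · exact thm8 f h
  · exact thm_ge n hge f h

end Vale.Agent.P047lib.Four
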