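import Mathlib
import Vale.Agent.P047lib.TopMinusTwo
import Vale.Agent.P047lib.Four

namespace Vale.Agent.P047lib.FourSharp

open Finset
open Vale.Agent.Results.P047.DegTopMinusTwo
open Vale.Agent.P047lib.Four

/-- toggling membership of `i` in `T` -/
def tog {n : ℕ} (T : Finset (Fin n)) (i : Fin n) : Finset (Fin n) :=
  if i ∈ T then T.erase i else insert i T

lemma chi_mul_sg {n : ℕ} (T : Finset (Fin n)) (i : Fin n) (x : Fin n → Bool) :
    chi T x * sg (x i) = chi (tog T i) x := by
  unfold chi tog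
  by_cases h : i ∈ T
  · rw [if_pos h, ← Finset.mul_prod_erase T (fun j => sg (x j)) h]
    rw [mul_comm (sg (x i)), mul_assoc, sg_mul_self, mul_one]
  · rw [if_neg h, Finset.prod_insert h, mul_comm]

lemma card_tog {n : ℕ} (T : Finset (Fin n)) (i : Fin n) : T.card ≤ (tog T i).card + 1 := by
  unfold tog
  by_cases h : i ∈ T
  · rw [if_pos h, Finset.card_erase_of_mem h]; omega
  · rw [if_neg h, Finset.card_insert_of_notMem h]; omega

lemma chi_mul_S {n : ℕ} (T : Finset (Fin n)) (x : Fin n → Bool) :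
    chi T x * S x = ∑ i, chi (tog T i) x := by
  unfold S
  rw [Finset.mul_sum]
  exact Finset.sum_congr rfl (fun i _ => chi_mul_sg T i x)

lemma orth0 {n : ℕ} (f : (Fin n → Bool) → ℝ)
    (hdeg : ∀ T : Finset (Fin n), 4 < T.card → fourier f T = 0)
    (T : Finset (Fin n)) (hT : 5 ≤ T.card) : ∑ x, f x * chi T x = 0 := by
  have h := hdeg T (by omega)
  unfold Vale.Agent.Results.P047.DegTopMinusTwo.fourier at h
  exact (div_eq_zero_iff.mp h).resolve_right (by positivity)

lemma orth_sum {n : ℕ} {ι : Type} (s : Finset ι) (f : (Fin n → Bool) → ℝ)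
    (g : ι → (Fin n → Bool) → ℝ) (h : ∀ i ∈ s, ∑ x, f x * g i x = 0) :
    ∑ x, f x * ∑ i ∈ s, g i x = 0 := by
  simp only [Finset.mul_sum]
  rw [Finset.sum_comm]
  exact Finset.sum_eq_zero h

lemma orthS1 {n : ℕ} (f : (Fin n → Bool) → ℝ)
    (hdeg : ∀ T : Finset (Fin n), 4 < T.card → fourier f T = 0)
    (T : Finset (Fin n)) (hT : 6 ≤ T.card) : ∑ x, f x * (chi T x * S x) = 0 := by
  simp only [chi_mul_S]
  apply orth_sum
  intro i _
  have h1 := card_tog T i
  exact orth0 f hdeg _ (by omega)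

lemma orthS3 {n : ℕ} (f : (Fin n → Bool) → ℝ)
    (hdeg : ∀ T : Finset (Fin n), 4 < T.card → fourier f T = 0)
    (T : Finset (Fin n)) (hT : 8 ≤ T.card) :
    ∑ x, f x * (chi T x * S x * S x * S x) = 0 := by
  simp only [chi_mul_S, Finset.sum_mul]
  apply orth_sum
  intro i _
  apply orth_sum
  intro j _
  apply orth_sum
  intro k _
  have h1 := card_tog T i
  have h2 := card_tog (tog T i) j
  have h3 := card_tog (tog (tog T i) j) k
  exact orth0 f hdeg _ (by omega)

/-- thirty times the absolute residual of the dual certificate -/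
noncomputable def Q (s v : ℝ) : ℝ := |30 * s + 34 * (v * s) - v * s * s * s|

noncomputable def T2 (n : ℕ) (s v : ℝ) : ℝ :=
  ∑ y : Fin n → Bool, Q (S y + s) (chi univ y * v)

lemma T2_zero (s v : ℝ) : T2 0 s v = Q s v := by
  unfold T2 S chi
  simp

lemma T2_succ (n : ℕ) (s v : ℝ) : T2 (n + 1) s v = T2 n (s - 1) (-v) + T2 n (s + 1) v := by
  unfold T2
  rw [sum_cons, ← Finset.sum_add_distrib]
  apply Finset.sum_congr rfl
  intro y _
  rw [Fintype.sum_bool, S_cons, S_cons, chi_cons, chi_cons, sg_true, sg_false]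
  congr 1 <;> congr 1 <;> ring

lemma T2_eight : T2 8 0 1 = 13824 := by
  simp only [T2_succ, T2_zero]
  unfold Q
  norm_num

/-- the dual certificate on eight variables -/
theorem eight_bound (f : (Fin 8 → Bool) → ℝ) (h : Cls f) : W f ≤ 9 / 5 := by
  have habs : ∀ x, |f x| ≤ 1 := by
    intro x
    rcases h.1 x with h1 | h1 <;> rw [h1] <;> norm_num
  have hc : (univ : Finset (Fin 8)).card = 8 := by simp
  have h1 := orthS1 f h.2 univ (by rw [hc]; norm_num)
  have h3 := orthS3 f h.2 univ (by rw [hc])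
  have hg : ∑ x, f x * (-(34 / 30 : ℝ) * (chi univ x * S x)
      + (1 / 30 : ℝ) * (chi univ x * S x * S x * S x)) = 0 := by
    have e : ∀ x : Fin 8 → Bool, f x * (-(34 / 30 : ℝ) * (chi univ x * S x)
        + (1 / 30 : ℝ) * (chi univ x * S x * S x * S x))
        = -(34 / 30 : ℝ) * (f x * (chi univ x * S x))
          + (1 / 30 : ℝ) * (f x * (chi univ x * S x * S x * S x)) := by
      intro x; ring
    simp only [e]
    rw [Finset.sum_add_distrib, ← Finset.mul_sum, ← Finset.mul_sum, h1, h3]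
    ring
  have hb := bound_of_dual f _ habs hg
  have hsum : ∑ x : Fin 8 → Bool, |S x - (-(34 / 30 : ℝ) * (chi univ x * S x)
      + (1 / 30 : ℝ) * (chi univ x * S x * S x * S x))| = T2 8 0 1 / 30 := by
    unfold T2
    rw [Finset.sum_div]
    apply Finset.sum_congr rfl
    intro x _
    unfold Q
    have e : S x - (-(34 / 30 : ℝ) * (chi univ x * S x)
        + (1 / 30 : ℝ) * (chi univ x * S x * S x * S x))
        = (30 * (S x + 0) + 34 * (chi univ x * 1 * (S x + 0))
          - chi univ x * 1 * (S x + 0) * (S x + 0) * (S x + 0)) / 30 := by ring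
    rw [e, abs_div]
    norm_num
  rw [hsum, T2_eight] at hb
  have hW : W f = (∑ x, f x * S x) / 2 ^ 8 := sum_fourier_singleton f
  rw [hW]
  rw [div_le_iff₀ (by positivity)]
  norm_num at hb ⊢
  linarith

theorem thm8s (f : (Fin 8 → Bool) → ℝ) (h : Cls f) : W f ≤ 7 / 4 := by
  have hb := eight_bound f h
  obtain ⟨m, hm⟩ := granular f h.1 h.2
  have hm' : (m : ℝ) < 8 := by rw [← hm]; linarith
  have hm'' : m < 8 := by exact_mod_cast hm'
  have hm3 : (m : ℝ) ≤ 7 := by exact_mod_cast (show m ≤ 7 by omega)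
  rw [← hm] at hm3
  linarith

theorem thm_ge_s : ∀ n : ℕ, 8 ≤ n → ∀ f : (Fin n → Bool) → ℝ, Cls f → W f ≤ 7 / 4 := by
  intro n hn
  induction n, hn using Nat.le_induction with
  | base => exact thm8s
  | succ n hn ih =>
    intro f h
    have hb := step_bound (n := n) (7 / 4) f (fun i b => ih _ (h.restr i b))
    obtain ⟨m, hm⟩ := granular f h.1 h.2
    have hn' : (8 : ℝ) ≤ n := by exact_mod_cast hn
    have hlt : 4 * W f < 8 := by
      by_contra hc
      push Not at hc
      have h3 := mul_le_mul_of_nonneg_left hc (by linarith : (0 : ℝ) ≤ n)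
      linarith
    have hm' : (m : ℝ) < 8 := by rw [← hm]; exact hlt
    have hm'' : m < 8 := by exact_mod_cast hm'
    have hm3 : (m : ℝ) ≤ 7 := by exact_mod_cast (show m ≤ 7 by omega)
    rw [← hm] at hm3
    linarith

/-- every Boolean function of degree at most `4` has `∑ f̂({i}) ≤ 7/4`, and four times the sum
is an integer. -/
theorem main (n : ℕ) (f : (Fin n → Bool) → ℝ) (h : Cls f) :
    W f ≤ 7 / 4 ∧ ∃ m : ℤ, 4 * W f = m := by
  refine ⟨?_, granular f h.1 h.2⟩
  rcases Nat.lt_or_ge n 8 with hlt | hge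
  · rcases Nat.lt_or_ge n 7 with h6 | h7
    · have := base6 (by omega) f h.1 h.2
      linarith
    · have h7' : n = 7 := by omega
      subst h7'
      exact thm7 f h
  · exact thm_ge_s n hge f h

end Vale.Agent.P047lib.FourSharp
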