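import Mathlib

namespace Vale.Agent.P047lib.Interp

open Polynomial Finset Real
open Polynomial.Chebyshev (node)

lemma node_reflect (n j : ℕ) (hn : n ≠ 0) (hj : j ≤ n) : node n (n - j) = - node n j := by
  unfold node
  have hn' : (n : ℝ) ≠ 0 := Nat.cast_ne_zero.mpr hn
  have : ((n - j : ℕ) : ℝ) * π / n = π - j * π / n := by
    rw [Nat.cast_sub hj]; field_simp
  rw [this, Real.cos_pi_sub]

lemma node_mid (m : ℕ) : node (2 * m + 1) m = Real.sin (π / (2 * (2 * m + 1 : ℕ))) := by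
  unfold node
  have h : (m : ℝ) * π / (2 * m + 1 : ℕ) = π / 2 - π / (2 * (2 * m + 1 : ℕ)) := by
    push_cast
    field_simp
    ring
  rw [h, Real.cos_pi_div_two_sub]

lemma node_ne_zero (m i : ℕ) (hi : i ≤ 2 * m + 1) : node (2 * m + 1) i ≠ 0 := by
  intro h0
  have hr := node_reflect (2 * m + 1) i (by omega) hi
  rw [h0, neg_zero] at hr
  have hinj := (Polynomial.Chebyshev.strictAntiOn_node (2 * m + 1)).injOn
  have h1 : (2 * m + 1 - i) ∈ (↑(Finset.range (2 * m + 1 + 1)) : Set ℕ) := by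
    simp only [Finset.coe_range, Set.mem_Iio]; omega
  have h2 : i ∈ (↑(Finset.range (2 * m + 1 + 1)) : Set ℕ) := by
    simp only [Finset.coe_range, Set.mem_Iio]; omega
  have := hinj h1 h2 (by show node (2 * m + 1) (2 * m + 1 - i) = node (2 * m + 1) i; rw [hr, h0])
  omega

lemma sum_inv_node (m : ℕ) :
    ∑ i ∈ Finset.range (2 * m + 1 + 1), (node (2 * m + 1) i)⁻¹ = 0 := by
  have h := Finset.sum_range_reflect (fun i => (node (2 * m + 1) i)⁻¹) (2 * m + 1 + 1)
  have h2 : ∑ j ∈ Finset.range (2 * m + 1 + 1), (node (2 * m + 1) (2 * m + 1 + 1 - 1 - j))⁻¹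
      = - ∑ j ∈ Finset.range (2 * m + 1 + 1), (node (2 * m + 1) j)⁻¹ := by
    rw [← Finset.sum_neg_distrib]
    apply Finset.sum_congr rfl
    intro j hj
    have hj' : j ≤ 2 * m + 1 := by
      have := Finset.mem_range.mp hj; omega
    have e : 2 * m + 1 + 1 - 1 - j = 2 * m + 1 - j := by omega
    rw [e, node_reflect (2 * m + 1) j (by omega) hj', inv_neg]
  rw [h2] at h
  linarith

/-- value at `0` of the derivative of the nodal polynomial with one node removed -/
lemma eval_deriv_nodal_erase (m i : ℕ) (hi : i ≤ 2 * m + 1) :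
    eval 0 (derivative (Lagrange.nodal ((Finset.range (2 * m + 1 + 1)).erase i) (node (2 * m + 1))))
      = - eval 0 (Lagrange.nodal (Finset.range (2 * m + 1 + 1)) (node (2 * m + 1)))
          / (node (2 * m + 1) i) ^ 2 := by
  set s := Finset.range (2 * m + 1 + 1) with hs
  set v := node (2 * m + 1) with hv
  have hmem : ∀ j, j ≤ 2 * m + 1 → j ∈ s := by
    intro j hj; rw [hs, Finset.mem_range]; omega
  have hne : ∀ j ∈ s, v j ≠ 0 := by
    intro j hj
    apply node_ne_zero
    have := Finset.mem_range.mp hj; omega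
  -- value of erased nodal at 0
  have hN : ∀ j ∈ s, eval 0 (Lagrange.nodal (s.erase j) v)
      = - eval 0 (Lagrange.nodal s v) * (v j)⁻¹ := by
    intro j hj
    have h := congrArg (eval 0) (Lagrange.nodal_eq_mul_nodal_erase (v := v) hj)
    simp only [eval_mul, eval_sub, eval_X, eval_C] at h
    rw [h]
    field_simp [hne j hj]
    ring
  -- derivative of the full nodal polynomial vanishes at 0
  have hN' : eval 0 (derivative (Lagrange.nodal s v)) = 0 := by
    rw [Lagrange.derivative_nodal, eval_finsetSum]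
    rw [Finset.sum_congr rfl hN, ← Finset.mul_sum, sum_inv_node, mul_zero]
  have his := hmem i hi
  have h := congrArg (fun p => eval 0 (derivative p)) (Lagrange.nodal_eq_mul_nodal_erase (v := v) his)
  simp only [derivative_mul, derivative_sub, derivative_X, derivative_C, eval_add, eval_mul,
    eval_sub, eval_X, eval_C, sub_zero, one_mul] at h
  rw [hN'] at h
  rw [hN i his] at h
  have hvi := hne i his
  field_simp
  field_simp at h
  linarith


lemma eval_deriv_T (m : ℕ) :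
    eval 0 (derivative (Polynomial.Chebyshev.T ℝ ((2 * m + 1 : ℕ) : ℤ)))
      = (-1) ^ m * (2 * (m : ℝ) + 1) := by
  rw [Polynomial.Chebyshev.T_derivative_eq_U]
  have hU := Polynomial.Chebyshev.U_real_cos (π / 2) (((2 * m + 1 : ℕ) : ℤ) - 1)
  rw [Real.cos_pi_div_two, Real.sin_pi_div_two, mul_one] at hU
  have e : ((((2 * m + 1 : ℕ) : ℤ) - 1 : ℤ) : ℝ) + 1 = 2 * (m : ℝ) + 1 := by push_cast; ring
  rw [e] at hU
  have hs : Real.sin ((2 * (m : ℝ) + 1) * (π / 2)) = (-1) ^ m := by
    have e2 : (2 * (m : ℝ) + 1) * (π / 2) = (m : ℝ) * π + π / 2 := by ring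
    rw [e2, Real.sin_add_pi_div_two, Real.cos_nat_mul_pi]
  rw [hs] at hU
  rw [eval_mul, hU]
  simp only [eval_intCast]
  push_cast
  ring

lemma prod_range_pair (m : ℕ) (F : ℕ → ℝ) :
    ∏ j ∈ Finset.range (2 * m + 1 + 1), F j
      = ∏ j ∈ Finset.range (m + 1), (F j * F (2 * m + 1 - j)) := by
  have e : 2 * m + 1 + 1 = (m + 1) + (m + 1) := by ring
  rw [e, Finset.prod_range_add, Finset.prod_mul_distrib]
  congr 1
  rw [← Finset.prod_range_reflect]
  apply Finset.prod_congr rfl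
  intro j hj
  have := Finset.mem_range.mp hj
  congr 1
  omega

lemma node_mid_succ (m : ℕ) : node (2 * m + 1) (m + 1) = - node (2 * m + 1) m := by
  have h := node_reflect (2 * m + 1) m (by omega) (by omega)
  have e : 2 * m + 1 - m = m + 1 := by omega
  rw [e] at h
  exact h

lemma node_mid_pos (m : ℕ) : 0 < node (2 * m + 1) m := by
  have h := Polynomial.Chebyshev.node_lt (n := 2 * m + 1) (i := m) (j := m + 1) (by omega) (by omega)
  rw [node_mid_succ] at h
  linarith

/-- the pairing inequality for the two nodes nearest to `0` -/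
lemma pairing (m i0 : ℕ) (hi0 : i0 = m ∨ i0 = m + 1) :
    node (2 * m + 1) m * ∏ j ∈ (Finset.range (2 * m + 1 + 1)).erase i0,
        |node (2 * m + 1) i0 - node (2 * m + 1) j|
      ≤ 2 * ∏ j ∈ Finset.range (2 * m + 1 + 1), |node (2 * m + 1) j| := by
  set v := node (2 * m + 1) with hv
  set x1 := v m with hx1
  have hx1pos : 0 < x1 := node_mid_pos m
  have hvm1 : v (m + 1) = - x1 := node_mid_succ m
  have hc2 : (v i0) ^ 2 = x1 ^ 2 := by
    rcases hi0 with rfl | rfl
    · rfl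
    · rw [hvm1]; ring
  have hrefl : ∀ j, j ≤ 2 * m + 1 → v (2 * m + 1 - j) = - v j := fun j hj =>
    node_reflect (2 * m + 1) j (by omega) hj
  have hgt : ∀ j, j < m → x1 < v j := fun j hj =>
    Polynomial.Chebyshev.node_lt (n := 2 * m + 1) (i := j) (j := m) (by omega) hj
  -- left product
  have hL : ∏ j ∈ (Finset.range (2 * m + 1 + 1)).erase i0, |v i0 - v j|
      = (∏ j ∈ Finset.range m, ((v j) ^ 2 - x1 ^ 2)) * (2 * x1) := by
    have h1 : ∏ j ∈ (Finset.range (2 * m + 1 + 1)).erase i0, |v i0 - v j|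
        = ∏ j ∈ (Finset.range (2 * m + 1 + 1)).erase i0, (if j = i0 then (1 : ℝ) else |v i0 - v j|) := by
      apply Finset.prod_congr rfl
      intro j hj
      rw [if_neg (Finset.ne_of_mem_erase hj)]
    rw [h1, Finset.prod_erase _ (by simp), prod_range_pair, Finset.prod_range_succ]
    congr 1
    · apply Finset.prod_congr rfl
      intro j hj
      have hj' := Finset.mem_range.mp hj
      have hne1 : j ≠ i0 := by rcases hi0 with rfl | rfl <;> omega
      have hne2 : 2 * m + 1 - j ≠ i0 := by rcases hi0 with rfl | rfl <;> omega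
      rw [if_neg hne1, if_neg hne2, hrefl j (by omega), ← abs_mul]
      have e : (v i0 - v j) * (v i0 - - v j) = -((v j) ^ 2 - x1 ^ 2) := by
        have : (v i0 - v j) * (v i0 - - v j) = (v i0) ^ 2 - (v j) ^ 2 := by ring
        rw [this, hc2]; ring
      rw [e, abs_neg, abs_of_nonneg]
      have := hgt j hj'
      nlinarith
    · have e : 2 * m + 1 - m = m + 1 := by omega
      rw [e]
      rcases hi0 with rfl | rfl
      · rw [if_pos rfl, if_neg (by omega), hvm1, one_mul]
        have : x1 - - x1 = 2 * x1 := by ring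
        rw [← hx1, this, abs_of_pos (by linarith)]
      · rw [if_neg (by omega), if_pos rfl, hvm1, mul_one]
        have : - x1 - v m = -(2 * x1) := by rw [← hx1]; ring
        rw [this, abs_neg, abs_of_pos (by linarith)]
  -- right product
  have hR : ∏ j ∈ Finset.range (2 * m + 1 + 1), |v j|
      = (∏ j ∈ Finset.range m, (v j) ^ 2) * x1 ^ 2 := by
    rw [prod_range_pair, Finset.prod_range_succ]
    congr 1
    · apply Finset.prod_congr rfl
      intro j hj
      have hj' := Finset.mem_range.mp hj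
      rw [hrefl j (by omega), abs_neg, ← abs_mul, abs_of_nonneg (mul_self_nonneg _)]
      ring
    · have e : 2 * m + 1 - m = m + 1 := by omega
      rw [e, hvm1, abs_neg, ← hx1, abs_of_pos hx1pos]
      ring
  rw [hL, hR]
  have hprod : ∏ j ∈ Finset.range m, ((v j) ^ 2 - x1 ^ 2) ≤ ∏ j ∈ Finset.range m, (v j) ^ 2 := by
    apply Finset.prod_le_prod
    · intro j hj
      have := hgt j (Finset.mem_range.mp hj)
      nlinarith
    · intro j hj
      nlinarith
  have hx1sq : 0 ≤ x1 ^ 2 := sq_nonneg _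
  nlinarith [mul_le_mul_of_nonneg_right hprod hx1sq]


/-- **Bernstein's inequality at `0` with a defect.** If `Q` has degree at most `2m+1` and is bounded
by `1` on `[-1,1]`, then `Q'(0) ≤ (2m+1) - (1 - Q(x₁))/(2x₁) - (1 + Q(-x₁))/(2x₁)` where
`x₁ = cos(mπ/(2m+1)) = sin(π/(2(2m+1)))` is the Chebyshev node nearest to `0`. -/
theorem deriv_zero_le (m : ℕ) (Q : ℝ[X]) (hdeg : Q.natDegree ≤ 2 * m + 1)
    (hb : ∀ x ∈ Set.Icc (-1 : ℝ) 1, |Q.eval x| ≤ 1) :
    (derivative Q).eval 0 ≤ (2 * (m : ℝ) + 1)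
      - (1 - Q.eval (node (2 * m + 1) m)) / (2 * node (2 * m + 1) m)
      - (1 + Q.eval (- node (2 * m + 1) m)) / (2 * node (2 * m + 1) m) := by
  obtain ⟨s, hs⟩ : ∃ s : Finset ℕ, s = Finset.range (2 * m + 1 + 1) := ⟨_, rfl⟩
  obtain ⟨v, hv⟩ : ∃ v : ℕ → ℝ, v = node (2 * m + 1) := ⟨_, rfl⟩
  obtain ⟨x1, hx1⟩ : ∃ x1 : ℝ, x1 = v m := ⟨_, rfl⟩
  rw [← hv, ← hx1]
  have hx1pos : 0 < x1 := by rw [hx1, hv]; exact node_mid_pos m
  have hvm1 : v (m + 1) = - x1 := by rw [hx1, hv]; exact node_mid_succ m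
  have hvs : Set.InjOn v (↑s : Set ℕ) := by
    rw [hs, hv]; exact (Polynomial.Chebyshev.strictAntiOn_node (2 * m + 1)).injOn
  have hle : ∀ i ∈ s, i ≤ 2 * m + 1 := by
    intro i hi; rw [hs] at hi; have := Finset.mem_range.mp hi; omega
  have hne : ∀ i ∈ s, v i ≠ 0 := by
    intro i hi; rw [hv]; exact node_ne_zero m i (hle i hi)
  obtain ⟨D, hD⟩ : ∃ D : ℕ → ℝ, ∀ i, D i = ∏ j ∈ s.erase i, (v i - v j) := ⟨_, fun _ => rfl⟩
  obtain ⟨N0, hN0⟩ : ∃ N0 : ℝ, N0 = eval 0 (Lagrange.nodal s v) := ⟨_, rfl⟩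
  have hDpos : ∀ i ∈ s, 0 < (-1 : ℝ) ^ i * D i := by
    intro i hi
    rw [hD, hs, hv]
    exact Polynomial.Chebyshev.zero_lt_prod_node_sub_node (hle i hi)
  have hDne : ∀ i ∈ s, D i ≠ 0 := by
    intro i hi h0
    have := hDpos i hi
    rw [h0, mul_zero] at this
    exact lt_irrefl _ this
  -- Step A: the derivative at 0 as a combination of node values
  have hA : ∀ P : ℝ[X], P.degree < (s.card : WithBot ℕ) →
      eval 0 (derivative P) = ∑ i ∈ s, P.eval (v i) * (-N0 / ((v i) ^ 2 * D i)) := by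
    intro P hP
    have hint := Lagrange.eq_interpolate hvs hP
    rw [Lagrange.interpolate_eq_sum] at hint
    have h2 := congrArg (fun p => eval 0 (derivative p)) hint
    simp only [derivative_sum, derivative_C_mul, eval_finsetSum, eval_mul, eval_C] at h2
    rw [h2]
    apply Finset.sum_congr rfl
    intro i hi
    have hE : eval 0 (derivative (∏ j ∈ s.erase i, (X - C (v j)))) = - N0 / (v i) ^ 2 := by
      rw [hN0, hs, hv]
      exact eval_deriv_nodal_erase m i (hle i hi)
    rw [hE, ← hD i]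
    have h1 := hne i hi
    have h3 := hDne i hi
    field_simp
  -- weights
  obtain ⟨w, hw⟩ : ∃ w : ℕ → ℝ, ∀ i, w i = 1 / ((v i) ^ 2 * ((-1 : ℝ) ^ i * D i)) :=
    ⟨_, fun _ => rfl⟩
  have hwpos : ∀ i ∈ s, 0 < w i := by
    intro i hi
    have h1 : 0 < (v i) ^ 2 := by
      have := hne i hi
      positivity
    have h2 := hDpos i hi
    rw [hw]
    positivity
  have hsq : ∀ i : ℕ, ((-1 : ℝ) ^ i) * ((-1 : ℝ) ^ i) = 1 := by
    intro i
    rw [← pow_add, ← two_mul, pow_mul]
    norm_num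
  have hcw : ∀ i ∈ s, -N0 / ((v i) ^ 2 * D i) = -N0 * ((-1 : ℝ) ^ i * w i) := by
    intro i hi
    have h1 := hne i hi
    have h3 := hDne i hi
    have h4 : ((-1 : ℝ) ^ i) ≠ 0 := pow_ne_zero _ (by norm_num)
    rw [hw]
    field_simp
  -- Step C: normalisation from the Chebyshev polynomial
  have hcard : s.card = 2 * m + 1 + 1 := by rw [hs, Finset.card_range]
  have hT := hA (Polynomial.Chebyshev.T ℝ ((2 * m + 1 : ℕ) : ℤ)) (by
    rw [Polynomial.Chebyshev.degree_T, hcard]
    norm_cast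
    simp)
  rw [eval_deriv_T] at hT
  obtain ⟨S, hS⟩ : ∃ S : ℝ, S = ∑ i ∈ s, w i := ⟨_, rfl⟩
  have hT2 : (-1 : ℝ) ^ m * (2 * (m : ℝ) + 1) = -N0 * S := by
    rw [hT, hS, Finset.mul_sum]
    apply Finset.sum_congr rfl
    intro i hi
    rw [hv, Polynomial.Chebyshev.eval_T_real_node (Finset.mem_Iic.mpr (hle i hi)), ← hv, hcw i hi]
    have := hsq i
    linear_combination (-N0 * w i) * this
  obtain ⟨κ, hκ⟩ : ∃ κ : ℝ, κ = (-1 : ℝ) ^ m * (-N0) := ⟨_, rfl⟩
  have hκS : κ * S = 2 * (m : ℝ) + 1 := by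
    have := hsq m
    rw [hκ]
    linear_combination (-((-1 : ℝ) ^ m)) * hT2 + (2 * (m : ℝ) + 1) * this
  have hSpos : 0 < S := by
    rw [hS]
    apply Finset.sum_pos hwpos
    exact ⟨0, by rw [hs, Finset.mem_range]; omega⟩
  have hκpos : 0 < κ := by
    by_contra hcon
    have hcon' : κ ≤ 0 := not_lt.mp hcon
    have : κ * S ≤ 0 := mul_nonpos_of_nonpos_of_nonneg hcon' hSpos.le
    rw [hκS] at this
    have hm : (0 : ℝ) ≤ m := Nat.cast_nonneg m
    linarith
  -- Step D: the formula for Q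
  have hQdeg : Q.degree < (s.card : WithBot ℕ) := by
    rw [hcard]
    calc Q.degree ≤ (Q.natDegree : WithBot ℕ) := Polynomial.degree_le_natDegree
      _ ≤ ((2 * m + 1 : ℕ) : WithBot ℕ) := by exact_mod_cast hdeg
      _ < ((2 * m + 1 + 1 : ℕ) : WithBot ℕ) := by exact_mod_cast Nat.lt_succ_self _
  obtain ⟨y, hy⟩ : ∃ y : ℕ → ℝ, ∀ i, y i = (-1 : ℝ) ^ m * (-1 : ℝ) ^ i * Q.eval (v i) :=
    ⟨_, fun _ => rfl⟩
  have hQ : eval 0 (derivative Q) = κ * ∑ i ∈ s, y i * w i := by
    rw [hA Q hQdeg, Finset.mul_sum]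
    apply Finset.sum_congr rfl
    intro i hi
    rw [hcw i hi, hκ, hy]
    have := hsq m
    linear_combination (N0 * (-1 : ℝ) ^ i * (eval (v i) Q) * w i) * this
  have hy1 : ∀ i ∈ s, y i ≤ 1 := by
    intro i hi
    have h1 := hb (v i) (by rw [hv]; exact Polynomial.Chebyshev.node_mem_Icc)
    have h2 : |y i| ≤ 1 := by
      rw [hy, abs_mul, abs_mul, abs_pow, abs_pow, abs_neg, abs_one, one_pow, one_pow, one_mul,
        one_mul]
      exact h1
    exact (abs_le.mp h2).2
  have hm_mem : m ∈ s := by rw [hs, Finset.mem_range]; omega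
  have hm1_mem : m + 1 ∈ s := by rw [hs, Finset.mem_range]; omega
  have hsum : w m * (1 - y m) + w (m + 1) * (1 - y (m + 1)) ≤ ∑ i ∈ s, w i * (1 - y i) := by
    have hsub : ({m, m + 1} : Finset ℕ) ⊆ s := by
      intro j hj
      rcases Finset.mem_insert.mp hj with rfl | hj
      · exact hm_mem
      · rw [Finset.mem_singleton.mp hj]; exact hm1_mem
    have h := Finset.sum_le_sum_of_subset_of_nonneg hsub (f := fun i => w i * (1 - y i))
      (fun i hi _ => mul_nonneg (hwpos i hi).le (by linarith [hy1 i hi]))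
    rw [Finset.sum_pair (by omega)] at h
    exact h
  have hQ2 : eval 0 (derivative Q) = (2 * (m : ℝ) + 1) - κ * ∑ i ∈ s, w i * (1 - y i) := by
    rw [hQ, ← hκS, hS, ← mul_sub, ← Finset.sum_sub_distrib]
    congr 1
    apply Finset.sum_congr rfl
    intro i _
    ring
  -- Step E: lower bounds for the two central weights
  have hκabs : κ = ∏ j ∈ s, |v j| := by
    have h1 : |κ| = |N0| := by
      rw [hκ, abs_mul, abs_pow, abs_neg, abs_one, one_pow, one_mul, abs_neg]
    rw [← abs_of_pos hκpos, h1, hN0, Lagrange.eval_nodal, Finset.abs_prod]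
    apply Finset.prod_congr rfl
    intro j _
    rw [zero_sub, abs_neg]
  have hDabs : ∀ i ∈ s, (-1 : ℝ) ^ i * D i = ∏ j ∈ s.erase i, |v i - v j| := by
    intro i hi
    rw [← abs_of_pos (hDpos i hi), abs_mul, abs_pow, abs_neg, abs_one, one_pow, one_mul, hD,
      Finset.abs_prod]
  have hwlow : ∀ i0, (i0 = m ∨ i0 = m + 1) → 1 / (2 * x1) ≤ κ * w i0 := by
    intro i0 hi0
    have hi0s : i0 ∈ s := by
      rcases hi0 with rfl | rfl
      · exact hm_mem
      · exact hm1_mem
    have hpair := pairing m i0 hi0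
    rw [← hv, ← hs, ← hx1, ← hDabs i0 hi0s, ← hκabs] at hpair
    have hv2 : (v i0) ^ 2 = x1 ^ 2 := by
      rcases hi0 with rfl | rfl
      · rw [hx1]
      · rw [hvm1]; ring
    have hpos := hDpos i0 hi0s
    rw [hw, hv2]
    have e : κ * (1 / (x1 ^ 2 * ((-1 : ℝ) ^ i0 * D i0))) = κ / (x1 ^ 2 * ((-1 : ℝ) ^ i0 * D i0)) := by
      ring
    rw [e, div_le_div_iff₀ (by positivity) (by positivity)]
    nlinarith [mul_le_mul_of_nonneg_left hpair hx1pos.le]
  have hym : y m = Q.eval x1 := by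
    rw [hy, hsq m, one_mul, hx1]
  have hym1 : y (m + 1) = - Q.eval (-x1) := by
    rw [hy, hvm1, pow_succ]
    have := hsq m
    linear_combination (-(eval (-x1) Q)) * this
  have h1 := hwlow m (Or.inl rfl)
  have h2 := hwlow (m + 1) (Or.inr rfl)
  have hg1 : 0 ≤ 1 - y m := by linarith [hy1 m hm_mem]
  have hg2 : 0 ≤ 1 - y (m + 1) := by linarith [hy1 (m + 1) hm1_mem]
  have hfin : (1 - Q.eval x1) / (2 * x1) + (1 + Q.eval (-x1)) / (2 * x1)
      ≤ κ * ∑ i ∈ s, w i * (1 - y i) := by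
    calc (1 - Q.eval x1) / (2 * x1) + (1 + Q.eval (-x1)) / (2 * x1)
        = (1 / (2 * x1)) * (1 - y m) + (1 / (2 * x1)) * (1 - y (m + 1)) := by
          rw [hym, hym1]; ring
      _ ≤ (κ * w m) * (1 - y m) + (κ * w (m + 1)) * (1 - y (m + 1)) := by
          apply add_le_add
          · exact mul_le_mul_of_nonneg_right h1 hg1
          · exact mul_le_mul_of_nonneg_right h2 hg2
      _ = κ * (w m * (1 - y m) + w (m + 1) * (1 - y (m + 1))) := by ring
      _ ≤ κ * ∑ i ∈ s, w i * (1 - y i) := mul_le_mul_of_nonneg_left hsum hκpos.le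
  rw [hQ2]
  linarith

end Vale.Agent.P047lib.Interp
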