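import Mathlib
import Vale.Agent.P047lib.TopMinusTwo
import Vale.Agent.P047lib.Biased
import Vale.Agent.P047lib.Envelope
import Vale.Agent.P047lib.Interp

namespace Vale.Agent.P047lib.Main

open Finset Polynomial
open Vale.Agent.Results.P047.DegTopMinusTwo
open Vale.Agent.P047lib
open Polynomial.Chebyshev (node)

/-- the odd part of a polynomial of degree `≤ d` -/
noncomputable def oddPart (P : ℝ[X]) (d : ℕ) : ℝ[X] :=
  ∑ k ∈ (Finset.range (d + 1)).filter Odd, C (P.coeff k) * X ^ k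

lemma oddPart_eval (P : ℝ[X]) (d : ℕ) (hP : P.natDegree ≤ d) (t : ℝ) :
    (oddPart P d).eval t = (P.eval t - P.eval (-t)) / 2 := by
  have h1 : ∀ s : ℝ, P.eval s = ∑ k ∈ Finset.range (d + 1), P.coeff k * s ^ k := fun s =>
    Polynomial.eval_eq_sum_range' (Nat.lt_succ_of_le hP) s
  rw [h1 t, h1 (-t), ← Finset.sum_sub_distrib, Finset.sum_div]
  unfold oddPart
  rw [Polynomial.eval_finsetSum, Finset.sum_filter]
  apply Finset.sum_congr rfl
  intro k _
  by_cases hk : Odd k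
  · rw [if_pos hk, Odd.neg_pow hk]
    simp only [eval_mul, eval_C, eval_pow, eval_X]
    ring
  · rw [if_neg hk, Even.neg_pow (Nat.not_odd_iff_even.mp hk)]
    ring

lemma oddPart_natDegree (P : ℝ[X]) (d m : ℕ) (hd : d ≤ 2 * m + 2) :
    (oddPart P d).natDegree ≤ 2 * m + 1 := by
  unfold oddPart
  apply Polynomial.natDegree_sum_le_of_forall_le
  intro k hk
  rw [Finset.mem_filter, Finset.mem_range] at hk
  obtain ⟨hk1, hk2⟩ := hk
  have hk3 : k ≤ 2 * m + 1 := by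
    rcases hk2 with ⟨j, rfl⟩
    omega
  exact (Polynomial.natDegree_C_mul_X_pow_le _ _).trans hk3

lemma oddPart_deriv (P : ℝ[X]) (d : ℕ) (hd : 1 ≤ d) :
    (derivative (oddPart P d)).eval 0 = (derivative P).eval 0 := by
  rw [← Polynomial.coeff_zero_eq_eval_zero, ← Polynomial.coeff_zero_eq_eval_zero,
    Polynomial.coeff_derivative, Polynomial.coeff_derivative]
  congr 1
  unfold oddPart
  rw [Polynomial.finsetSum_coeff]
  simp only [Polynomial.coeff_C_mul_X_pow]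
  rw [Finset.sum_ite_eq]
  rw [if_pos]
  rw [Finset.mem_filter, Finset.mem_range]
  exact ⟨by omega, by decide⟩

/-- **Explicit bound.** A non-constant Boolean function of degree at most `d`, where
`2m+1 ≤ d ≤ 2m+2` and `m ≥ 1`, has
`∑ f̂(i) ≤ (2m+1) - 2(1-x)^d / (x((1+x)^d + (1-x)^d))` with `x = cos(mπ/(2m+1))`. -/
theorem explicit_bound {n : ℕ} (f : (Fin n → Bool) → ℝ) (hf : ∀ x, f x = 1 ∨ f x = -1)
    (x0 : Fin n → Bool) (hx0 : f x0 = -1)
    (d m : ℕ) (hm : 1 ≤ m) (hd1 : 2 * m + 1 ≤ d) (hd2 : d ≤ 2 * m + 2)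
    (hdeg : ∀ T : Finset (Fin n), d < T.card → fourier f T = 0) :
    ∑ i, fourier f {i} ≤ (2 * (m : ℝ) + 1)
      - 2 * (1 - node (2 * m + 1) m) ^ d
        / (((1 + node (2 * m + 1) m) ^ d + (1 - node (2 * m + 1) m) ^ d) * node (2 * m + 1) m) := by
  obtain ⟨P, hP1, hP2, hP3, hP4, hP5⟩ := Biased.boolean_poly f hf d hdeg
  obtain ⟨x1, hx1⟩ : ∃ x1 : ℝ, x1 = node (2 * m + 1) m := ⟨_, rfl⟩
  rw [← hx1]
  have hx1pos : 0 < x1 := by rw [hx1]; exact Interp.node_mid_pos m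
  have hx1lt : x1 < 1 := by
    rw [hx1]
    have h := Polynomial.Chebyshev.node_lt (n := 2 * m + 1) (i := 0) (j := m) (by omega) (by omega)
    rwa [Polynomial.Chebyshev.node_eq_one] at h
  have hlt : ∀ t : ℝ, |t| < 1 → P.eval t < 1 := by
    intro t ht
    rw [hP2]
    exact Biased.Ex_lt_one t ht f hf x0 hx0
  have henv := Envelope.envelope P d hP3 hlt hP4 x1 hx1pos.le hx1lt
  obtain ⟨Q, hQ⟩ : ∃ Q : ℝ[X], Q = oddPart P d := ⟨_, rfl⟩
  have hQe : ∀ t : ℝ, Q.eval t = (P.eval t - P.eval (-t)) / 2 := by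
    intro t; rw [hQ]; exact oddPart_eval P d hP1 t
  have hQdeg : Q.natDegree ≤ 2 * m + 1 := by rw [hQ]; exact oddPart_natDegree P d m hd2
  have hQb : ∀ x ∈ Set.Icc (-1 : ℝ) 1, |Q.eval x| ≤ 1 := by
    intro x hx
    rw [hQe]
    have h1 := hP3 x (abs_le.mpr ⟨hx.1, hx.2⟩)
    have h2 := hP3 (-x) (abs_le.mpr ⟨by linarith [hx.2], by linarith [hx.1]⟩)
    rw [abs_le] at h1 h2 ⊢
    constructor <;> linarith [h1.1, h1.2, h2.1, h2.2]
  have hQd : (derivative Q).eval 0 = ∑ i, fourier f {i} := by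
    rw [hQ, oddPart_deriv P d (by omega), hP5]
  have hI := Interp.deriv_zero_le m Q hQdeg hQb
  rw [← hx1, hQd] at hI
  have hQneg : Q.eval (-x1) = - Q.eval x1 := by
    rw [hQe, hQe, neg_neg]; ring
  rw [hQneg] at hI
  obtain ⟨A, hA⟩ : ∃ A : ℝ, A = (1 + x1) ^ d := ⟨_, rfl⟩
  obtain ⟨B, hB⟩ : ∃ B : ℝ, B = (1 - x1) ^ d := ⟨_, rfl⟩
  rw [← hA, ← hB] at henv ⊢
  have hApos : 0 < A := by rw [hA]; exact pow_pos (by linarith) d
  have hBpos : 0 < B := by rw [hB]; exact pow_pos (by linarith) d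
  -- Q(x1) ≤ (A - B)/(A + B)
  have hQx : Q.eval x1 ≤ (A - B) / (A + B) := by
    rw [hQe, le_div_iff₀ (by linarith)]
    linarith
  have h2 : 2 * B / ((A + B) * x1) ≤ (1 - Q.eval x1) / (2 * x1) + (1 + - Q.eval x1) / (2 * x1) := by
    have e : (1 - Q.eval x1) / (2 * x1) + (1 + - Q.eval x1) / (2 * x1) = (1 - Q.eval x1) / x1 := by
      field_simp
      ring
    rw [e, div_le_div_iff₀ (by positivity) hx1pos]
    have h3 : 2 * B / (A + B) ≤ 1 - Q.eval x1 := by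
      have e2 : 2 * B / (A + B) = 1 - (A - B) / (A + B) := by
        field_simp
        ring
      rw [e2]; linarith
    rw [div_le_iff₀ (by linarith)] at h3
    nlinarith [mul_le_mul_of_nonneg_right h3 hx1pos.le]
  linarith


/-- **Bernstein-type bound.** A Boolean function of degree at most `d`, `1 ≤ d ≤ 2m+2`, has
`∑ f̂(i) ≤ 2m+1`. -/
theorem bernstein_bound {n : ℕ} (f : (Fin n → Bool) → ℝ) (hf : ∀ x, f x = 1 ∨ f x = -1)
    (d m : ℕ) (hd1 : 1 ≤ d) (hd2 : d ≤ 2 * m + 2)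
    (hdeg : ∀ T : Finset (Fin n), d < T.card → fourier f T = 0) :
    ∑ i, fourier f {i} ≤ 2 * (m : ℝ) + 1 := by
  obtain ⟨P, hP1, hP2, hP3, hP4, hP5⟩ := Biased.boolean_poly f hf d hdeg
  obtain ⟨Q, hQ⟩ : ∃ Q : ℝ[X], Q = oddPart P d := ⟨_, rfl⟩
  have hQe : ∀ t : ℝ, Q.eval t = (P.eval t - P.eval (-t)) / 2 := by
    intro t; rw [hQ]; exact oddPart_eval P d hP1 t
  have hQdeg : Q.natDegree ≤ 2 * m + 1 := by rw [hQ]; exact oddPart_natDegree P d m hd2
  have hQb : ∀ x ∈ Set.Icc (-1 : ℝ) 1, |Q.eval x| ≤ 1 := by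
    intro x hx
    rw [hQe]
    have h1 := hP3 x (abs_le.mpr ⟨hx.1, hx.2⟩)
    have h2 := hP3 (-x) (abs_le.mpr ⟨by linarith [hx.2], by linarith [hx.1]⟩)
    rw [abs_le] at h1 h2 ⊢
    constructor <;> linarith [h1.1, h1.2, h2.1, h2.2]
  have hQd : (derivative Q).eval 0 = ∑ i, fourier f {i} := by
    rw [hQ, oddPart_deriv P d hd1, hP5]
  have hI := Interp.deriv_zero_le m Q hQdeg hQb
  rw [hQd] at hI
  have hxpos : 0 < node (2 * m + 1) m := Interp.node_mid_pos m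
  have hmem : node (2 * m + 1) m ∈ Set.Icc (-1 : ℝ) 1 := Polynomial.Chebyshev.node_mem_Icc
  have hmem2 : - node (2 * m + 1) m ∈ Set.Icc (-1 : ℝ) 1 := ⟨by linarith [hmem.2], by linarith [hmem.1]⟩
  have h1 := abs_le.mp (hQb _ hmem)
  have h2 := abs_le.mp (hQb _ hmem2)
  have h3 : 0 ≤ (1 - Q.eval (node (2 * m + 1) m)) / (2 * node (2 * m + 1) m) :=
    div_nonneg (by linarith [h1.2]) (by linarith)
  have h4 : 0 ≤ (1 + Q.eval (- node (2 * m + 1) m)) / (2 * node (2 * m + 1) m) :=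
    div_nonneg (by linarith [h2.1]) (by linarith)
  linarith

/-- a constant function has vanishing degree-one Fourier coefficients -/
lemma const_sum_zero {n : ℕ} (f : (Fin n → Bool) → ℝ) (hc : ∀ x, f x = 1) :
    ∑ i, fourier f {i} = 0 := by
  rw [← Biased.Ds_zero_eq]
  unfold Biased.Ds Biased.G Biased.Ex
  simp [hc]

end Vale.Agent.P047lib.Main
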