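import Mathlib
import Vale.Agent.P047lib.Interp

namespace Vale.Agent.P047lib.Numerics

open Real
open Polynomial.Chebyshev (node)

lemma ratio_le_exp (x : ℝ) (hx0 : 0 ≤ x) (hx1 : x < 1) :
    (1 + x) / (1 - x) ≤ Real.exp (2 * x / (1 - x ^ 2)) := by
  have h1 : 0 < 1 - x := by linarith
  have h2 : 0 < 1 - x ^ 2 := by nlinarith
  have hu0 : 0 ≤ 2 * x / (1 - x ^ 2) := by positivity
  have h3 := Real.quadratic_le_exp_of_nonneg hu0
  refine le_trans ?_ h3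
  have key : 1 + 2 * x / (1 - x ^ 2) + (2 * x / (1 - x ^ 2)) ^ 2 / 2
      = (1 + x) / (1 - x) + 2 * x ^ 4 / (1 - x ^ 2) ^ 2 := by
    have h1' := h1.ne'
    have h2' := h2.ne'
    field_simp
    ring
  rw [key]
  have : 0 ≤ 2 * x ^ 4 / (1 - x ^ 2) ^ 2 := by positivity
  linarith

lemma pow_ratio_le (x : ℝ) (hx0 : 0 ≤ x) (hx1 : x < 1) (d : ℕ) :
    ((1 + x) / (1 - x)) ^ d ≤ Real.exp (d * (2 * x / (1 - x ^ 2))) := by
  rw [Real.exp_nat_mul]
  have h1 : 0 < 1 - x := by linarith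
  exact pow_le_pow_left₀ (by positivity) (ratio_le_exp x hx0 hx1) d

lemma exp_bound : Real.exp (21 / 5 : ℝ) ≤ 70 := by
  have h1 : Real.exp (21 / 5 : ℝ) = Real.exp 1 ^ 4 * Real.exp (1 / 5) := by
    rw [← Real.exp_nat_mul, ← Real.exp_add]
    norm_num
  have h2 := Real.exp_one_lt_d9
  have h3 : Real.exp (1 / 5 : ℝ) ≤ 1 / (1 - 1 / 5) :=
    Real.exp_bound_div_one_sub_of_interval (by norm_num) (by norm_num)
  rw [h1]
  have h4 : Real.exp 1 ^ 4 ≤ (2.7182818286 : ℝ) ^ 4 :=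
    pow_le_pow_left₀ (Real.exp_pos 1).le h2.le 4
  calc Real.exp 1 ^ 4 * Real.exp (1 / 5)
      ≤ (2.7182818286 : ℝ) ^ 4 * (1 / (1 - 1 / 5)) :=
        mul_le_mul h4 h3 (Real.exp_pos _).le (by positivity)
    _ ≤ 70 := by norm_num

/-- lower bound for the gain term when the odd interpolation degree is at least `5` -/
lemma gain_lower (m d : ℕ) (hm : 2 ≤ m) (hd2 : d ≤ 2 * m + 2) :
    (2 * (m : ℝ) + 1) / 60 ≤ 2 * (1 - node (2 * m + 1) m) ^ d
      / (((1 + node (2 * m + 1) m) ^ d + (1 - node (2 * m + 1) m) ^ d) * node (2 * m + 1) m) := by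
  obtain ⟨x, hx⟩ : ∃ x : ℝ, x = node (2 * m + 1) m := ⟨_, rfl⟩
  rw [← hx]
  obtain ⟨nr, hnr⟩ : ∃ nr : ℝ, nr = 2 * (m : ℝ) + 1 := ⟨_, rfl⟩
  rw [← hnr]
  have hm' : (2 : ℝ) ≤ m := by exact_mod_cast hm
  have hnr5 : 5 ≤ nr := by rw [hnr]; linarith
  have hxpos : 0 < x := by rw [hx]; exact Interp.node_mid_pos m
  have hpi1 := Real.pi_lt_d4
  have hpi0 := Real.pi_gt_three
  have hxy : x ≤ π / (2 * nr) := by
    rw [hx, Interp.node_mid, hnr]
    have e : ((2 * m + 1 : ℕ) : ℝ) = 2 * (m : ℝ) + 1 := by push_cast; ring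
    rw [e]
    apply Real.sin_le
    positivity
  have hy : π / (2 * nr) ≤ 0.31416 := by
    rw [div_le_iff₀ (by linarith)]
    nlinarith
  have hx1 : x < 1 := by linarith
  have h1x : 0 < 1 - x := by linarith
  have hx2 : x ^ 2 ≤ 0.0987 := by nlinarith
  have hw : 0 < 1 - x ^ 2 := by linarith
  -- bound on the exponent
  have hdr : (d : ℝ) ≤ nr + 1 := by
    rw [hnr]
    have : (d : ℝ) ≤ ((2 * m + 2 : ℕ) : ℝ) := by exact_mod_cast hd2
    push_cast at this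
    linarith
  have hnx : nr * x ≤ π / 2 := by
    have h := mul_le_mul_of_nonneg_left hxy (by linarith : (0 : ℝ) ≤ nr)
    have e : nr * (π / (2 * nr)) = π / 2 := by
      field_simp
    rw [e] at h
    exact h
  have hdx : (d : ℝ) * (2 * x) ≤ 3.77 := by
    have h1 : (d : ℝ) * (2 * x) ≤ (nr + 1) * (2 * x) :=
      mul_le_mul_of_nonneg_right hdr (by linarith)
    have h2 : (nr + 1) * (2 * x) = 2 * (nr * x) + 2 * x := by ring
    have h3 : x ≤ 0.31416 := le_trans hxy hy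
    linarith
  have hexp : (d : ℝ) * (2 * x / (1 - x ^ 2)) ≤ 21 / 5 := by
    have e : (d : ℝ) * (2 * x / (1 - x ^ 2)) = (d : ℝ) * (2 * x) / (1 - x ^ 2) := by ring
    rw [e, div_le_iff₀ hw]
    linarith
  have hK : ((1 + x) / (1 - x)) ^ d ≤ 70 :=
    (pow_ratio_le x hxpos.le hx1 d).trans ((Real.exp_le_exp.mpr hexp).trans exp_bound)
  obtain ⟨A, hA⟩ : ∃ A : ℝ, A = (1 + x) ^ d := ⟨_, rfl⟩
  obtain ⟨B, hB⟩ : ∃ B : ℝ, B = (1 - x) ^ d := ⟨_, rfl⟩
  rw [← hA, ← hB]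
  have hBpos : 0 < B := by rw [hB]; exact pow_pos h1x d
  have hApos : 0 < A := by rw [hA]; exact pow_pos (by linarith) d
  have hAB : A ≤ 70 * B := by
    rw [div_pow, ← hA, ← hB, div_le_iff₀ hBpos] at hK
    exact hK
  rw [div_le_div_iff₀ (by norm_num) (by positivity)]
  have h5 : (A + B) * (nr * x) ≤ (71 * B) * (π / 2) :=
    mul_le_mul (by linarith) hnx (by positivity) (by positivity)
  nlinarith [h5, hBpos, mul_pos hBpos Real.pi_pos]

lemma node_three : node (2 * 1 + 1) 1 = 1 / 2 := by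
  rw [Interp.node_mid]
  have e : π / (2 * ((2 * 1 + 1 : ℕ) : ℝ)) = π / 6 := by
    push_cast; ring
  rw [e, Real.sin_pi_div_six]

end Vale.Agent.P047lib.Numerics
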